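import Vale.Agent.P321.Increment

/-!
# P321: the second moment of the difference over one class of traces
-/

namespace Vale.Agent.P321.Cls

open Finset

variable {P : Cls} {κ : ℝ} {K : ℕ}

/-- An increment minus its mean. -/
noncomputable def centred (P : Cls) (s : Bool) (L y : ℕ) (b : Bool) : ℝ :=
  P.incr s L y b - P.drift s L y

theorem centred_mean (s : Bool) (L y : ℕ) :
    urnMean s (L + 1) y (P.centred s (L + 1) y) = 0 := by
  cases s <;> simp only [centred, drift, urnMean, if_true, Bool.false_eq_true, if_false] <;> ring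

variable (G : P.Good κ K)
include G

theorem end_dead : P.g 0 0 = 0 ∧ P.gv 0 0 = 0 ∧ P.S 0 0 = 0 ∧ P.d 0 0 = 0 := by
  refine dead ?_
  have h1 : 2 * P.k + 4 ≤ P.ℓ := by
    have : (((2 * P.k + 4 : ℕ)) : ℝ) ≤ P.ℓ := by push_cast; linarith [G.hl, G.big]
    exact_mod_cast this
  have := G.hA2
  simp only [u]
  omega

theorem pathSum_incr (s : Bool) (t : List Bool) :
    pathSum P.incr s t = stateSum (fun s L y => if s then 0 else P.f L y) s t -
      (if s then 0 else P.f t.length (pairs (s :: t))) + P.pot s t.length (pairs (s :: t)) := by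
  induction t generalizing s with
  | nil =>
    obtain ⟨h1, -, -, h4⟩ := end_dead G
    cases s <;> simp [pathSum, stateSum, pairs, pot, h1, h4]
  | cons b r ih =>
    have hn : nxt s (pairs (s :: b :: r)) b = pairs (b :: r) := by
      cases s <;> cases b <;> simp [nxt, pairs]
    simp only [pathSum, stateSum, incr, ih, List.length_cons, Nat.add_sub_cancel, hn]
    cases b
    · have hy : pairs (s :: false :: r) = pairs (false :: r) := by simp [pairs]
      simp only [hy, Bool.false_eq_true, if_false]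
      ring
    · simp only [if_true]
      ring

theorem delta_eq {t : List Bool} (ht : t.length = P.ℓ) (hA : pairs (true :: t) = P.A) :
    stateSum (fun s L y => if s then 0 else P.f L y) true t =
      pathSum P.centred true t + pathSum (fun s L y _ => P.drift s L y) true t := by
  rw [← pathSum_add']
  have h := pathSum_incr G true t
  rw [ht, hA] at h
  simp only [pot, g_root, mul_zero, if_true, add_zero, sub_zero] at h
  rw [← h]
  congr 1
  funext s L y b
  simp [centred]

theorem centred_sq_le {s b : Bool} {L y : ℕ} (h : P.Step s L y b) :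
    P.centred s (L + 1) y b ^ 2 ≤ 200000000000 / κ ^ 16 *
      ((P.Q K (L + 1) y + P.Q K L (nxt s y b)) * (P.S (L + 1) y + P.S L (nxt s y b))) := by
  have hκ := G.κ0
  have hκ1 := G.κ1
  set q₀ := P.Q K (L + 1) y
  set q₁ := P.Q K L y
  set s₀ := P.S (L + 1) y
  set s₁ := P.S L y
  have hq0 : 0 ≤ q₀ := Q_nonneg _ _ _
  have hq1 : 0 ≤ q₁ := Q_nonneg _ _ _
  have hs0 : 0 ≤ s₀ := S_nonneg _ _
  have hs1 : 0 ≤ s₁ := S_nonneg _ _
  have hc : |P.centred s (L + 1) y b| ≤ 620 / κ ^ 5 * (|P.d (L + 1) y| + (q₀ + q₁)) := by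
    have h1 := incr_le G h.cur b
    have h2 := drift_le G h.cur
    have h3 : 0 ≤ 400 / κ ^ 5 * |P.d (L + 1) y| := by positivity
    rw [centred]
    refine (abs_sub _ _).trans ?_
    linear_combination h1 + h2 + h3
  have hd := sq_d_le G h.cur.near
  have hq : (q₀ + q₁) ^ 2 ≤ 37 * ((s₀ + s₁) * (q₀ + q₁)) := by
    have := add_le_add (Q_le_S G h.cur.near) (Q_le_S G h.cur.vert)
    nlinarith
  have hκ4 : 1 ≤ 1 / κ ^ 4 := by
    rw [le_div_iff₀ (by positivity), one_mul]
    exact pow_le_one₀ hκ.le hκ1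
  have hd' : P.d (L + 1) y ^ 2 ≤ 1 / κ ^ 4 * ((s₀ + s₁) * (q₀ + q₁)) :=
    hd.trans (mul_le_mul_of_nonneg_left
      (mul_le_mul (by linarith) (by linarith) hq0 (by linarith)) (by positivity))
  have hsum : (|P.d (L + 1) y| + (q₀ + q₁)) ^ 2 ≤ 76 / κ ^ 4 * ((s₀ + s₁) * (q₀ + q₁)) := by
    have h0 : 0 ≤ (s₀ + s₁) * (q₀ + q₁) := by positivity
    have := mul_le_mul_of_nonneg_right hκ4 h0
    rw [show 76 / κ ^ 4 = 76 * (1 / κ ^ 4) by ring, mul_assoc]
    nlinarith [sq_nonneg (|P.d (L + 1) y| - (q₀ + q₁)), sq_abs (P.d (L + 1) y)]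
  obtain ⟨hS, hQ⟩ := vert_le G h
  have h3 : 1 ≤ 3 / κ := by rw [le_div_iff₀ hκ]; linarith
  have h2000 : 1 ≤ 2000 / κ := by rw [le_div_iff₀ hκ]; linarith
  have hSn := S_nonneg (P := P) L (nxt s y b)
  have hQn := Q_nonneg (P := P) K L (nxt s y b)
  calc P.centred s (L + 1) y b ^ 2 = |P.centred s (L + 1) y b| ^ 2 := (sq_abs _).symm
    _ ≤ (620 / κ ^ 5 * (|P.d (L + 1) y| + (q₀ + q₁))) ^ 2 :=
        pow_le_pow_left₀ (abs_nonneg _) hc 2
    _ ≤ (620 / κ ^ 5) ^ 2 * (76 / κ ^ 4 * ((s₀ + s₁) * (q₀ + q₁))) := by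
        rw [mul_pow]; gcongr
    _ ≤ (620 / κ ^ 5) ^ 2 * (76 / κ ^ 4 * ((3 / κ * (s₀ + P.S L (nxt s y b))) *
          (2000 / κ * (q₀ + P.Q K L (nxt s y b))))) := by
        refine mul_le_mul_of_nonneg_left (mul_le_mul_of_nonneg_left ?_ (by positivity))
          (by positivity)
        refine mul_le_mul ?_ ?_ (by positivity) (by positivity)
        · linear_combination hS + mul_le_mul_of_nonneg_right h3 hs0
        · linear_combination hQ + mul_le_mul_of_nonneg_right h2000 hq0
    _ = 175286400000 / κ ^ 16 *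
          ((P.Q K (L + 1) y + P.Q K L (nxt s y b)) * (P.S (L + 1) y + P.S L (nxt s y b))) := by
        ring
    _ ≤ _ := by gcongr; norm_num

theorem drift_step_le {s b : Bool} {L y : ℕ} (h : P.Step s L y b) :
    |P.drift s (L + 1) y| ≤ 800000 / κ ^ 6 * (P.Q K (L + 1) y + P.Q K L (nxt s y b)) := by
  have hκ := G.κ0
  have h2000 : 1 ≤ 2000 / κ := by rw [le_div_iff₀ hκ]; linarith [G.κ1]
  refine (drift_le G h.cur).trans ?_
  rw [show 800000 / κ ^ 6 * (P.Q K (L + 1) y + P.Q K L (nxt s y b)) =
    400 / κ ^ 5 * (2000 / κ * (P.Q K (L + 1) y + P.Q K L (nxt s y b))) by ring]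
  refine mul_le_mul_of_nonneg_left ?_ (by positivity)
  linear_combination (vert_le G h).2 + mul_le_mul_of_nonneg_right h2000 (Q_nonneg K (L + 1) y)

variable {t : List Bool} (ht : t.length = P.ℓ) (hA : pairs (true :: t) = P.A)
include ht hA

theorem sum_Q_le : pathSum (fun s L y b => P.Q K L y + P.Q K (L - 1) (nxt s y b)) true t ≤
    6600 / κ ^ 3 * P.N / K := by
  have hκ := G.κ0
  have hK := G.K_pos
  have hN : 0 ≤ P.N := Nat.cast_nonneg _
  have e : (fun (_ : Bool) (L y : ℕ) (_ : Bool) => P.Q K L y) = fun _ L y _ =>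
      1 / (K : ℝ) * P.S L y + 1 / (K : ℝ) ^ 4 * (P.Z L y ^ 2 * P.S L y) := by
    funext _ L y _
    simp only [Q]
    ring
  have h0 : pathSum (fun _ L y _ => P.Q K L y) true t ≤ 3300 / κ ^ 3 * P.N / K := by
    rw [e, pathSum_add', pathSum_mul', pathSum_mul']
    calc _ ≤ 1 / (K : ℝ) * (18 / κ ^ 2 * P.N) +
          1 / (K : ℝ) ^ 4 * (3240 / κ ^ 3 * (K : ℝ) ^ 3 * P.N) := by
          gcongr
          exacts [sum_S_le G ht hA, sum_energy_le G ht hA]
      _ = (18 * κ + 3240) / κ ^ 3 * P.N / K := by field_simp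
      _ ≤ _ := by gcongr; linarith [G.κ1]
  have htel := pathSum_telescope (P.Q K) true t
  rw [ht, hA, show P.Q K 0 0 = 0 by simp [Q, (end_dead G).2.2.1]] at htel
  have h1 : pathSum (fun s L y b => P.Q K L y + P.Q K (L - 1) (nxt s y b)) true t =
      2 * pathSum (fun _ L y _ => P.Q K L y) true t - P.Q K P.ℓ P.A := by
    have e2 : (fun s L y b => P.Q K L y + P.Q K (L - 1) (nxt s y b)) =
        fun s L y b => 2 * P.Q K L y + (P.Q K (L - 1) (nxt s y b) - P.Q K L y) := by
      funext s L y b; ring
    rw [e2, pathSum_add', pathSum_mul', htel]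
    ring
  rw [h1]
  linarith [Q_nonneg (P := P) K P.ℓ P.A, show 6600 / κ ^ 3 * P.N / K = 2 * (3300 / κ ^ 3 * P.N / K)
    by ring]

omit ht hA

/-- The main bound: the difference of the two slots over a class of traces. -/
theorem class_bound :
    classSum true P.ℓ P.A (fun t => stateSum (fun s L y => if s then 0 else P.f L y) true t ^ 2) ≤
      200000000000000000000000 / κ ^ 25 * (P.N ^ 2 / ((K : ℝ) * Real.sqrt K)) *
        classCard true P.ℓ P.A := by
  have hκ := G.κ0
  have hκ1 := G.κ1
  have hK := G.K_pos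
  have hN : 0 ≤ P.N := Nat.cast_nonneg _
  have hs : 0 < Real.sqrt K := Real.sqrt_pos.2 hK
  set B := P.N ^ 2 / ((K : ℝ) * Real.sqrt K) with hB
  have hB0 : 0 ≤ B := by positivity
  have hroot : ∀ t : List Bool, t.length = P.ℓ → pairs (true :: t) = P.A →
      P.Reach true t.length (pairs (true :: t)) := fun t ht hA => by
    rw [ht, hA]; exact root_reach G
  have hM : ∀ t : List Bool, t.length = P.ℓ → pairs (true :: t) = P.A →
      pathSum (fun s L y b => P.centred s L y b ^ 2) true t ≤
        53000000000000000000 / κ ^ 25 * B := by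
    intro t ht hA
    have hW : ∀ s L y b, 0 ≤ P.Q K L y + P.Q K (L - 1) (nxt s y b) :=
      fun s L y b => add_nonneg (Q_nonneg _ _ _) (Q_nonneg _ _ _)
    refine (pathSum_le (h' := fun s L y b => 200000000000 / κ ^ 16 *
      ((P.Q K L y + P.Q K (L - 1) (nxt s y b)) * (P.S L y + P.S (L - 1) (nxt s y b))))
      (fun s L y b h => by simpa only [Nat.add_sub_cancel] using centred_sq_le G h) true t
      (hroot t ht hA)).trans ?_
    rw [pathSum_mul']
    calc _ ≤ 200000000000 / κ ^ 16 * (12 / κ * (3300 / κ ^ 5 * P.N / Real.sqrt K) *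
          (6600 / κ ^ 3 * P.N / K)) := by
          refine mul_le_mul_of_nonneg_left
            ((sum_mul_le G hW true t (hroot t ht hA)).trans ?_) (by positivity)
          exact mul_le_mul (mul_le_mul_of_nonneg_left (sum_var_le G ht hA) (by positivity))
            (sum_Q_le G ht hA) (pathSum_nonneg hW _ _) (by positivity)
      _ = 52272000000000000000 / κ ^ 25 * B := by rw [hB]; field_simp; ring
      _ ≤ _ := by gcongr; norm_num
  have hD : ∀ t : List Bool, t.length = P.ℓ → pairs (true :: t) = P.A →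
      pathSum (fun s L y _ => P.drift s L y) true t ^ 2 ≤
        30000000000000000000 / κ ^ 25 * B := by
    intro t ht hA
    have h1 : |pathSum (fun s L y _ => P.drift s L y) true t| ≤
        800000 / κ ^ 6 * (6600 / κ ^ 3 * P.N / K) := by
      refine le_trans ?_ (mul_le_mul_of_nonneg_left (sum_Q_le G ht hA) (by positivity))
      rw [← pathSum_mul', abs_le]
      constructor
      · rw [neg_le, show -pathSum (fun s L y _ => P.drift s L y) true t =
          pathSum (fun s L y _ => -1 * P.drift s L y) true t by rw [pathSum_mul']; ring]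
        exact pathSum_le (fun s L y b h => by
          have := abs_le.1 (drift_step_le G h)
          simp only [Nat.add_sub_cancel]; linarith) true t (hroot t ht hA)
      · exact pathSum_le (fun s L y b h => by
          have := abs_le.1 (drift_step_le G h)
          simp only [Nat.add_sub_cancel]; linarith) true t (hroot t ht hA)
    have hpow : κ ^ 25 ≤ κ ^ 18 := pow_le_pow_of_le_one hκ.le hκ1 (by norm_num)
    have hsK : Real.sqrt K ≤ K := by
      nlinarith [Real.mul_self_sqrt hK.le, Real.one_le_sqrt.2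
        (show (1 : ℝ) ≤ K by nlinarith [G.big])]
    calc _ = |pathSum (fun s L y _ => P.drift s L y) true t| ^ 2 := (sq_abs _).symm
      _ ≤ (800000 / κ ^ 6 * (6600 / κ ^ 3 * P.N / K)) ^ 2 :=
          pow_le_pow_left₀ (abs_nonneg _) h1 2
      _ = 27878400000000000000 / κ ^ 18 * (P.N ^ 2 / ((K : ℝ) * K)) := by ring
      _ ≤ _ := by
          refine mul_le_mul ?_ ?_ (by positivity) (by positivity)
          · gcongr; norm_num
          · exact div_le_div_of_nonneg_left (sq_nonneg _) (by positivity)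
              (mul_le_mul_of_nonneg_left hsK hK.le)
  calc classSum true P.ℓ P.A
        (fun t => stateSum (fun s L y => if s then 0 else P.f L y) true t ^ 2)
      ≤ classSum true P.ℓ P.A (fun t => 2 * pathSum P.centred true t ^ 2 +
          2 * pathSum (fun s L y _ => P.drift s L y) true t ^ 2) :=
        classSum_mono _ _ _ fun t ht hA => by
          rw [delta_eq G ht hA]
          exact add_sq_le.trans_eq (mul_add _ _ _)
    _ = 2 * classSum true P.ℓ P.A (pathSum (fun s L y b => P.centred s L y b ^ 2) true) +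
          2 * classSum true P.ℓ P.A
            (fun t => pathSum (fun s L y _ => P.drift s L y) true t ^ 2) := by
        rw [classSum_add, classSum_mul, classSum_mul,
          (classSum_pathSum P.centred centred_mean true P.ℓ P.A).2]
    _ ≤ 2 * classSum true P.ℓ P.A (fun _ => 53000000000000000000 / κ ^ 25 * B) +
          2 * classSum true P.ℓ P.A (fun _ => 30000000000000000000 / κ ^ 25 * B) := by
        gcongr
        exacts [classSum_mono _ _ _ hM, classSum_mono _ _ _ hD]
    _ = 166000000000000000000 / κ ^ 25 * B * classCard true P.ℓ P.A := by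
        rw [classSum_const, classSum_const]; ring
    _ ≤ _ := by gcongr; norm_num

end Vale.Agent.P321.Cls
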