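import Vale.Agent.P321.Path

/-!
# P321: the difference of two readings is a martingale plus a term of order `1 / K`
-/

namespace Vale.Agent.P321.Cls

open Finset

variable (P : Cls)

/-- The class with the slot moved one step. -/
def shift : Cls := ⟨P.k + 1, P.J - 1, P.ℓ, P.A⟩

/-- The difference of the weights of the two slots. -/
def f (L y : ℕ) : ℝ := P.shift.g L y - P.g L y

/-- The urn's share of the letter `1` after `0`. -/
noncomputable def a (L y : ℕ) : ℝ := 2 * y / ((L : ℝ) + 1)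

/-- The share of chosen slots. -/
noncomputable def ρ (L y : ℕ) : ℝ := L / P.v y

/-- The first coefficient of the potential. -/
noncomputable def α (L y : ℕ) : ℝ := -P.ρ L y / (2 - a L y * P.ρ L y)

/-- The second coefficient of the potential. -/
noncomputable def β (L y : ℕ) : ℝ := -P.ρ L y - P.α L y / a L y

/-- The potential that turns the difference into a martingale. -/
noncomputable def pot (s : Bool) (L y : ℕ) : ℝ :=
  P.α L y * P.g L y + if s then 0 else P.β L y * P.d L y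

/-- The increment. -/
noncomputable def incr (s : Bool) (L y : ℕ) (b : Bool) : ℝ :=
  (if b then 0 else P.f (L - 1) y) - (P.pot b (L - 1) (nxt s y b) - P.pot s L y)

/-- Its mean over the urn. -/
noncomputable def drift (s : Bool) (L y : ℕ) : ℝ := urnMean s L y (P.incr s L y)

/-- The error scale of a state. -/
noncomputable def Q (K L y : ℕ) : ℝ :=
  P.S L y * (1 / (K : ℝ) + P.Z L y ^ 2 / (K : ℝ) ^ 4)

variable {P}

theorem Q_nonneg (K L y : ℕ) : 0 ≤ P.Q K L y :=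
  mul_nonneg (S_nonneg _ _) (by positivity)

theorem S_div_le_Q (K L y : ℕ) : P.S L y / K ≤ P.Q K L y := by
  rw [Q, mul_add, mul_one_div]
  exact le_add_of_nonneg_right (mul_nonneg (S_nonneg _ _) (by positivity))

variable {κ : ℝ} {K : ℕ} (G : P.Good κ K)
include G

theorem J_pos : 1 ≤ P.J := by
  have h : (P.k : ℝ) + 4 + κ * K ≤ P.A := G.hA
  have := G.hR
  have : (P.A : ℝ) * 2 ≤ P.ℓ := by exact_mod_cast (mul_comm 2 P.A ▸ G.hA2)
  have : (1 : ℝ) ≤ P.J := by linarith [G.big, Nat.cast_nonneg (α := ℝ) P.k]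
  exact_mod_cast this

theorem f_mul {L y : ℕ} (hL : L + 1 ≤ P.ℓ) :
    P.f L y * (P.v y : ℝ) = P.g (L + 1) y * ((L : ℝ) + 1) - P.gv (L + 1) y * L := by
  have hu : P.shift.u y = P.u y + 1 := by simp only [shift, u]; omega
  have hv : P.v y = P.shift.v y + 1 := by
    have := J_pos G
    simp only [shift, v]; omega
  have := gg_jump (P.u y) (P.shift.v y) (P.ℓ - (L + 1)) L
  rw [← hv, show P.ℓ - (L + 1) + 1 = P.ℓ - L by omega] at this
  rw [f, g, g, g, gv, Nat.add_sub_cancel, hu, show P.shift.ℓ = P.ℓ from rfl,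
    show P.ℓ - (L + 1) + 1 = P.ℓ - L by omega]
  rw [hv] at this ⊢
  push_cast at this ⊢
  linear_combination this

/-- Bounds on the coefficients at a state with many letters and pairs left. -/
theorem coef_le {L y : ℕ} (h : P.Near L y) (hy : κ * K ≤ (y : ℝ)) :
    0 ≤ P.ρ L y ∧ P.ρ L y ≤ 1 ∧ κ / 2 ≤ a L y ∧ 1 ≤ 2 - a L y * P.ρ L y ∧
      |P.α L y| ≤ 1 ∧ |P.β L y| ≤ 3 / κ := by
  have hv := v_sub_ge G h
  have hK := G.K_pos
  have hκ := G.κ0
  have hv0 : (0 : ℝ) < P.v y := by linarith [G.big, Nat.cast_nonneg (α := ℝ) L]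
  have h0 : 0 ≤ P.ρ L y := div_nonneg (Nat.cast_nonneg _) hv0.le
  have h1 : P.ρ L y ≤ 1 := by
    rw [ρ, div_le_one hv0]
    linarith [G.big]
  obtain ⟨hL2, -⟩ := L_le G h
  have ha : κ / 2 ≤ a L y := by
    rw [a, le_div_iff₀ (by positivity)]
    nlinarith [G.big, G.κ1]
  have hy2 : 2 * (y : ℝ) ≤ L + 2 := by exact_mod_cast h.hy2
  have hden : 1 ≤ 2 - a L y * P.ρ L y := by
    have : a L y * P.ρ L y ≤ 1 := by
      rw [a, ρ, div_mul_div_comm, div_le_one (by positivity)]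
      nlinarith [Nat.cast_nonneg (α := ℝ) L, G.big]
    linarith
  have hα : |P.α L y| ≤ P.ρ L y := by
    rw [α, neg_div, abs_neg, abs_of_nonneg (div_nonneg h0 (by linarith))]
    exact div_le_self h0 hden
  refine ⟨h0, h1, ha, hden, hα.trans h1, ?_⟩
  have hapos : 0 < a L y := lt_of_lt_of_le (by positivity) ha
  calc |P.β L y| ≤ |P.ρ L y| + |P.α L y| / a L y := by
        rw [β, ← abs_of_pos hapos, ← abs_div, abs_of_pos hapos, sub_eq_add_neg]
        exact (abs_add_le _ _).trans_eq (by rw [abs_neg, abs_neg])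
    _ ≤ 1 + 1 / (κ / 2) := by
        rw [abs_of_nonneg h0]
        exact add_le_add h1 (div_le_div₀ zero_le_one (hα.trans h1) (by positivity) ha)
    _ ≤ _ := by
        rw [show 1 / (κ / 2) = 2 / κ by field_simp, show 3 / κ = 1 / κ + 2 / κ by ring]
        gcongr
        rw [le_div_iff₀ hκ]
        linarith [G.κ1]

/-- The coefficients move by `O(1 / K)` in one step. -/
theorem coef_lip {L y y' : ℕ} (h : P.Near (L + 1) y) (h' : P.Near L y')
    (hy : y' = y ∨ y' + 1 = y) (hL : κ * K + 2 ≤ (L : ℝ) + 1) (hy0 : κ * K + 2 ≤ (y : ℝ)) :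
    |P.α L y' - P.α (L + 1) y| ≤ 34 / (κ ^ 3 * K) ∧
      |P.β L y' - P.β (L + 1) y| ≤ 34 / (κ ^ 3 * K) := by
  have hK := G.K_pos
  have hκ := G.κ0
  have hκ1 := G.κ1
  have hy' : κ * K ≤ (y' : ℝ) := by
    have : (y : ℝ) ≤ y' + 1 := by exact_mod_cast (show y ≤ y' + 1 by omega)
    linarith
  obtain ⟨r0, r1, a0, d0, α0, -⟩ := coef_le G h (by linarith)
  obtain ⟨r0', r1', a0', d0', α0', -⟩ := coef_le G h' hy'
  set w := κ * (K : ℝ) with hw
  have hwpos : 0 < w := by positivity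
  have hd : |(y' : ℝ) - y| ≤ 1 := by
    rcases hy with rfl | hy
    · simp
    · have : (y' : ℝ) + 1 = y := by exact_mod_cast hy
      rw [abs_le]; constructor <;> linarith
  have hv := v_sub_ge G h
  have hv' := v_sub_ge G h'
  push_cast at hv
  have hvd : |(P.v y' : ℝ) - P.v y| ≤ 1 := by
    simpa [v] using hd
  have hρ : |P.ρ L y' - P.ρ (L + 1) y| ≤ 2 / w := by
    have e : P.ρ L y' - P.ρ (L + 1) y =
        -(1 / (P.v y : ℝ)) - (P.ρ L y') * (((P.v y' : ℝ) - P.v y) / P.v y) := by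
      have : (0 : ℝ) < P.v y' := by linarith [Nat.cast_nonneg (α := ℝ) L]
      have : (0 : ℝ) < P.v y := by linarith [Nat.cast_nonneg (α := ℝ) L]
      simp only [ρ]
      push_cast
      field_simp
      ring
    have hv0 : w ≤ (P.v y : ℝ) := by linarith [Nat.cast_nonneg (α := ℝ) L]
    rw [e]
    refine (abs_sub _ _).trans ?_
    rw [show 2 / w = 1 / w + 1 * (1 / w) by ring, abs_neg, abs_of_nonneg (show (0 : ℝ) ≤ 1 / P.v y
      by positivity), abs_mul, abs_of_nonneg r0', abs_div, Nat.abs_cast]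
    exact add_le_add (one_div_le_one_div_of_le hwpos hv0)
      (mul_le_mul r1' (div_le_div₀ zero_le_one hvd hwpos hv0) (by positivity) zero_le_one)
  have ha : |a L y' - a (L + 1) y| ≤ 4 / w := by
    have e : a L y' - a (L + 1) y = 2 * ((y' : ℝ) - y) / ((L : ℝ) + 2) +
        a L y' * (1 / ((L : ℝ) + 2)) := by
      simp only [a]
      push_cast
      field_simp
      ring
    have hy2 : a L y' ≤ 2 := by
      rw [a, div_le_iff₀ (by positivity)]
      have : 2 * (y' : ℝ) ≤ L + 2 := by exact_mod_cast h'.hy2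
      linarith [Nat.cast_nonneg (α := ℝ) L]
    have hL' : w ≤ (L : ℝ) + 2 := by linarith
    rw [e]
    refine (abs_add_le _ _).trans ?_
    rw [show 4 / w = 2 / w + 2 * (1 / w) by ring, abs_div, abs_mul, abs_mul, abs_two,
      abs_of_nonneg (show (0 : ℝ) ≤ a L y' by linarith), abs_of_nonneg (show (0 : ℝ) ≤ (L : ℝ) + 2
      by positivity), abs_of_nonneg (show (0 : ℝ) ≤ 1 / ((L : ℝ) + 2) by positivity)]
    exact add_le_add (div_le_div₀ zero_le_two (by linarith) hwpos hL')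
      (mul_le_mul hy2 (one_div_le_one_div_of_le hwpos hL') (by positivity) zero_le_two)
  have hα : |P.α L y' - P.α (L + 1) y| ≤ 8 / w := by
    set ρ₀ := P.ρ (L + 1) y
    set ρ₁ := P.ρ L y'
    set a₀ := a (L + 1) y
    set a₁ := a L y'
    have e : P.α L y' - P.α (L + 1) y = -((2 * (ρ₁ - ρ₀) + ρ₁ * ρ₀ * (a₁ - a₀)) /
        ((2 - a₁ * ρ₁) * (2 - a₀ * ρ₀))) := by
      change -ρ₁ / (2 - a₁ * ρ₁) - -ρ₀ / (2 - a₀ * ρ₀) = _
      rw [div_sub_div _ _ (by linarith) (by linarith), ← neg_div]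
      congr 1
      ring
    rw [e, abs_neg, abs_div, abs_of_pos (show 0 < (2 - a₁ * ρ₁) * (2 - a₀ * ρ₀) by nlinarith)]
    refine (div_le_self (abs_nonneg _) (by nlinarith)).trans ((abs_add_le _ _).trans ?_)
    rw [show 8 / w = 2 * (2 / w) + 1 * (4 / w) by ring, abs_mul, abs_mul (ρ₁ * ρ₀), abs_two,
      abs_of_nonneg (mul_nonneg r0' r0)]
    exact add_le_add (by gcongr) (mul_le_mul (by nlinarith) ha (abs_nonneg _) zero_le_one)
  have hle : 8 / w ≤ 34 / (κ ^ 3 * K) := by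
    rw [div_le_div_iff₀ hwpos (by positivity), hw]
    nlinarith [mul_le_mul_of_nonneg_left (pow_le_of_le_one hκ.le hκ1 three_ne_zero) hK.le]
  refine ⟨hα.trans hle, ?_⟩
  have hap : 0 < a (L + 1) y := by linarith
  have hap' : 0 < a L y' := by linarith
  have e : P.β L y' - P.β (L + 1) y = -(P.ρ L y' - P.ρ (L + 1) y) -
      (P.α L y' - P.α (L + 1) y) / a (L + 1) y +
        P.α L y' * ((a L y' - a (L + 1) y) / (a (L + 1) y * a L y')) := by
    simp only [β]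
    field_simp
    ring
  rw [e]
  refine (abs_add_le _ _).trans ((add_le_add (abs_sub _ _) le_rfl).trans ?_)
  rw [abs_neg, abs_div, abs_mul, abs_div, abs_of_pos hap, abs_of_pos (mul_pos hap hap')]
  calc _ ≤ 2 / w + 8 / w / (κ / 2) + 1 * (4 / w / (κ / 2 * (κ / 2))) := by
        refine add_le_add (add_le_add hρ (div_le_div₀ (by positivity) hα (by positivity) a0)) ?_
        exact mul_le_mul α0' (div_le_div₀ (by positivity) ha (by positivity)
          (mul_le_mul a0 a0' (by positivity) hap.le)) (by positivity) zero_le_one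
    _ = (2 * κ ^ 2 + 16 * κ + 16) / (κ ^ 3 * K) := by rw [hw]; field_simp; ring
    _ ≤ _ := by gcongr; nlinarith

/-- Second differences of the weight. -/
theorem second_diff {L y : ℕ} (h : P.Near (L + 2) y) (h1 : P.Near (L + 1) y)
    (hl : P.ℓ - (L + 2) ≤ P.u y + 1) :
    |P.d (L + 1) y - P.d (L + 2) y| ≤ 42 / κ ^ 4 * (P.Q K (L + 2) y + P.Q K (L + 1) y) := by
  have hK := G.K_pos
  have hκ := G.κ0
  have hκ1 := G.κ1
  have hD := (live G h hl).2.2.2
  obtain ⟨hL2, hj2⟩ := L_le G h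
  have hu := u_le G h
  have hv := v_le G h
  have e0 : P.D (L + 2) y * P.d (L + 2) y = P.Z (L + 2) y * P.S (L + 2) y :=
    P.D_mul_d (L := L + 1) y
  have e1 : P.D (L + 1) y * P.d (L + 1) y = P.Z (L + 1) y * P.S (L + 1) y := P.D_mul_d (L := L) y
  have eS : P.S (L + 1) y - P.S (L + 2) y = P.d (L + 1) y + P.d (L + 2) y := by
    have := P.gv_eq_g_next (L := L + 1) y h.hL
    simp only [S, d] at *
    linarith
  set Z₀ := P.Z (L + 2) y
  set Z₁ := P.Z (L + 1) y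
  set S₀ := P.S (L + 2) y with hS₀
  set S₁ := P.S (L + 1) y with hS₁
  set d₀ := P.d (L + 2) y
  set d₁ := P.d (L + 1) y
  have hS0 : 0 ≤ S₀ := S_nonneg _ _
  have hS1 : 0 ≤ S₁ := S_nonneg _ _
  have hΔD : |P.D (L + 1) y - P.D (L + 2) y| ≤ 12 * K := by
    have e : ((P.ℓ - (L + 1) : ℕ) : ℝ) = ((P.ℓ - (L + 2) : ℕ) : ℝ) + 1 := by
      have : P.ℓ - (L + 1) = P.ℓ - (L + 2) + 1 := by have := h.hL; omega
      exact_mod_cast this
    push_cast at hL2
    simp only [D, e]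
    push_cast
    rw [abs_le]
    have := Nat.cast_nonneg (α := ℝ) L
    have := Nat.cast_nonneg (α := ℝ) (P.ℓ - (L + 2))
    have := Nat.cast_nonneg (α := ℝ) (P.u y)
    have := Nat.cast_nonneg (α := ℝ) (P.v y)
    constructor <;> linarith
  have hΔZ : |Z₁ - Z₀| ≤ 9 * K := Z_step G h (Or.inl rfl)
  have hd0 : κ ^ 2 * (K : ℝ) ^ 2 * |d₀| ≤ |Z₀| * S₀ := abs_d_le G h
  have hd1 : κ ^ 2 * (K : ℝ) ^ 2 * |d₁| ≤ |Z₁| * S₁ := abs_d_le G h1
  have hd1' : |d₁| ≤ S₁ := abs_d_le_S _ _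
  have e : P.D (L + 2) y * (d₁ - d₀) =
      (Z₁ - Z₀) * S₁ + Z₀ * (d₁ + d₀) - (P.D (L + 1) y - P.D (L + 2) y) * d₁ := by
    linear_combination e1 - e0 + Z₀ * eS
  set C₀ := κ ^ 2 * (K : ℝ) ^ 2 with hC₀
  have hC : 0 < C₀ := by positivity
  have hC1 : C₀ ≤ (K : ℝ) ^ 2 := by
    rw [hC₀]; exact mul_le_of_le_one_left (sq_nonneg _) (by nlinarith)
  have m1 : C₀ * |d₁ - d₀| ≤ 21 * K * S₁ + |Z₀| * (|d₁| + |d₀|) := by
    calc C₀ * |d₁ - d₀| ≤ |P.D (L + 2) y * (d₁ - d₀)| := by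
          rw [abs_mul]
          exact mul_le_mul_of_nonneg_right (hD.trans (le_abs_self _)) (abs_nonneg _)
      _ ≤ |Z₁ - Z₀| * S₁ + |Z₀| * |d₁ + d₀| + |P.D (L + 1) y - P.D (L + 2) y| * |d₁| := by
          rw [e]
          refine (abs_sub _ _).trans (add_le_add ((abs_add_le _ _).trans ?_) (abs_mul _ _).le)
          rw [abs_mul, abs_mul, abs_of_nonneg hS1]
      _ ≤ 9 * K * S₁ + |Z₀| * (|d₁| + |d₀|) + 12 * K * S₁ := by
          gcongr
          exact abs_add_le _ _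
      _ = _ := by ring
  have m3 : C₀ * (|Z₀| * (|d₁| + |d₀|)) ≤
      (2 * Z₁ ^ 2 + 21 * (K : ℝ) ^ 2) * S₁ + Z₀ ^ 2 * S₀ := by
    have a1 : |Z₀| ≤ |Z₁| + 9 * K := by
      have := abs_sub_abs_le_abs_sub Z₀ Z₁
      rw [abs_sub_comm Z₀ Z₁] at this
      linarith
    have a2 := mul_le_mul_of_nonneg_left hd1 (abs_nonneg Z₀)
    have a3 := mul_le_mul_of_nonneg_left hd0 (abs_nonneg Z₀)
    have a4 : |Z₀| * (|Z₁| * S₁) ≤ (2 * Z₁ ^ 2 + 21 * (K : ℝ) ^ 2) * S₁ := by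
      rw [← mul_assoc]
      refine mul_le_mul_of_nonneg_right ?_ hS1
      nlinarith [mul_le_mul_of_nonneg_right a1 (abs_nonneg Z₁), sq_abs Z₁,
        sq_nonneg (|Z₁| - 9 / 2 * K)]
    have a5 : |Z₀| * (|Z₀| * S₀) = Z₀ ^ 2 * S₀ := by rw [← mul_assoc, ← sq, sq_abs]
    linarith [show C₀ * (|Z₀| * (|d₁| + |d₀|)) =
      |Z₀| * (C₀ * |d₁|) + |Z₀| * (C₀ * |d₀|) by ring]
  have m4 : C₀ * (C₀ * |d₁ - d₀|) ≤
      (42 * (K : ℝ) ^ 3 + 2 * Z₁ ^ 2) * S₁ + Z₀ ^ 2 * S₀ := by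
    have hK1 : (1 : ℝ) ≤ K := by nlinarith [G.big]
    linear_combination mul_le_mul_of_nonneg_left m1 hC.le + m3 + mul_le_mul_of_nonneg_right hC1
      (show 0 ≤ 21 * (K : ℝ) * S₁ by positivity) + mul_le_mul_of_nonneg_right hK1
      (show 0 ≤ 21 * (K : ℝ) ^ 2 * S₁ by positivity)
  rw [div_mul_eq_mul_div, le_div_iff₀ (by positivity)]
  refine le_of_mul_le_mul_right ?_ (show 0 < (K : ℝ) ^ 4 by positivity)
  calc |d₁ - d₀| * κ ^ 4 * (K : ℝ) ^ 4 = C₀ * (C₀ * |d₁ - d₀|) := by rw [hC₀]; ring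
    _ ≤ (42 * (K : ℝ) ^ 3 + 2 * Z₁ ^ 2) * S₁ + Z₀ ^ 2 * S₀ := m4
    _ ≤ 42 * ((K : ℝ) ^ 3 * S₀ + Z₀ ^ 2 * S₀ + ((K : ℝ) ^ 3 * S₁ + Z₁ ^ 2 * S₁)) := by
        linear_combination 41 * mul_nonneg (sq_nonneg Z₀) hS0 +
          40 * mul_nonneg (sq_nonneg Z₁) hS1 + 42 * mul_nonneg (pow_nonneg hK.le 3) hS0
    _ = _ := by simp only [Q, ← hS₀, ← hS₁]; field_simp; ring

end Vale.Agent.P321.Cls
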