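import Vale.Agent.P321.Trace

/-!
# P321: squared Hellinger distance and samples
-/

namespace Vale.Agent.P321

open Finset

/-- The probability that the trace of `w` is `t`. -/
noncomputable def prob (p : ℝ) (w t : List Bool) : ℝ :=
  p ^ t.length * (1 - p) ^ (w.length - t.length) * emb w t

/-- The Hellinger term of one word. -/
noncomputable def hell (p : ℝ) (w w' t : List Bool) : ℝ :=
  (Real.sqrt (prob p w t) - Real.sqrt (prob p w' t)) ^ 2

/-- The words of a given length. -/
def words : ℕ → Finset (List Bool)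
  | 0 => {[]}
  | L + 1 => (words L).image (List.cons false) ∪ (words L).image (List.cons true)

theorem mem_words {L : ℕ} {t : List Bool} : t ∈ words L ↔ t.length = L := by
  induction L generalizing t with
  | zero => simp [words]
  | succ L ih =>
    rcases t with _ | ⟨b, r⟩
    · simp [words]
    · cases b <;> simp [words, ih]

theorem wordSum_eq_sum (L : ℕ) (F : List Bool → ℝ) : wordSum L F = ∑ t ∈ words L, F t := by
  induction L generalizing F with
  | zero => simp [wordSum, words]
  | succ L ih =>
    have hd : Disjoint ((words L).image (List.cons false)) ((words L).image (List.cons true)) := by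
      simp [Finset.disjoint_left]
    rw [wordSum, words, sum_union hd, sum_image (by simp), sum_image (by simp), ih, ih]

theorem prob_nonneg {p : ℝ} (h0 : 0 ≤ p) (h1 : p ≤ 1) (w t : List Bool) : 0 ≤ prob p w t :=
  mul_nonneg (mul_nonneg (pow_nonneg h0 _) (pow_nonneg (by linarith) _)) (Nat.cast_nonneg _)

theorem prob_cons (p : ℝ) (a : Bool) (w : List Bool) (b : Bool) (r : List Bool) :
    prob p (a :: w) (b :: r) =
      (1 - p) * prob p w (b :: r) + if a = b then p * prob p w r else 0 := by
  simp only [prob, emb, List.length_cons]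
  rcases lt_or_ge w.length (r.length + 1) with h | h
  · rw [emb_eq_zero_of_lt (w := w) (t := b :: r) (by simpa using h)]
    by_cases e : a = b <;> simp [e, pow_succ] <;> ring
  · rw [show w.length + 1 - (r.length + 1) = w.length - (r.length + 1) + 1 by omega, pow_succ]
    by_cases e : a = b
    · rw [show w.length - r.length = w.length - (r.length + 1) + 1 by omega, pow_succ]
      simp only [e, if_true]
      push_cast
      ring
    · simp only [e, if_false]
      push_cast
      ring

theorem expect_eq_prob (p : ℝ) (w : List Bool) (F : List Bool → ℝ) :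
    expect p w F = ∑ L ∈ range (w.length + 1), wordSum L (fun t => prob p w t * F t) := by
  rw [expect_eq]
  refine Finset.sum_congr rfl fun L _ => ?_
  rw [← wordSum_mul]
  exact wordSum_congr _ fun t ht => by simp only [prob, ht]; ring

theorem expect_one (p : ℝ) (w : List Bool) : expect p w (fun _ => 1) = 1 := by
  induction w with
  | nil => rfl
  | cons a w ih => rw [expect, ih]; ring

theorem expect_add (p : ℝ) (w : List Bool) (F G : List Bool → ℝ) :
    expect p w (fun t => F t + G t) = expect p w F + expect p w G := by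
  induction w generalizing F G with
  | nil => rfl
  | cons a w ih => simp only [expect, ih]; ring

theorem expect_mul (p : ℝ) (w : List Bool) (c : ℝ) (F : List Bool → ℝ) :
    expect p w (fun t => c * F t) = c * expect p w F := by
  induction w generalizing F with
  | nil => rfl
  | cons a w ih => simp only [expect, ih]; ring

theorem expect_mono {p : ℝ} (h0 : 0 ≤ p) (h1 : p ≤ 1) (w : List Bool) {F G : List Bool → ℝ}
    (h : ∀ t, F t ≤ G t) : expect p w F ≤ expect p w G := by
  induction w generalizing F G with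
  | nil => exact h []
  | cons a w ih =>
    exact add_le_add (mul_le_mul_of_nonneg_left (ih h) (by linarith))
      (mul_le_mul_of_nonneg_left (ih fun t => h _) h0)

theorem sqrt_mix {a b c d : ℝ} (ha : 0 ≤ a) (hb : 0 ≤ b) (hc : 0 ≤ c) (hd : 0 ≤ d) :
    (Real.sqrt (a + b) - Real.sqrt (c + d)) ^ 2 ≤
      (Real.sqrt a - Real.sqrt c) ^ 2 + (Real.sqrt b - Real.sqrt d) ^ 2 := by
  have key : Real.sqrt a * Real.sqrt c + Real.sqrt b * Real.sqrt d ≤
      Real.sqrt (a + b) * Real.sqrt (c + d) := by
    rw [← Real.sqrt_mul (add_nonneg ha hb)]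
    refine Real.le_sqrt_of_sq_le ?_
    nlinarith [Real.sq_sqrt ha, Real.sq_sqrt hb, Real.sq_sqrt hc, Real.sq_sqrt hd,
      sq_nonneg (Real.sqrt a * Real.sqrt d - Real.sqrt b * Real.sqrt c)]
  nlinarith [Real.sq_sqrt ha, Real.sq_sqrt hb, Real.sq_sqrt hc, Real.sq_sqrt hd,
    Real.sq_sqrt (add_nonneg ha hb), Real.sq_sqrt (add_nonneg hc hd)]

/-- The squared Hellinger distance between the traces of `w` and `w'`. -/
noncomputable def hellSum (p : ℝ) (n : ℕ) (w w' : List Bool) : ℝ :=
  ∑ L ∈ range (n + 1), wordSum L (hell p w w')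

/-- A common first letter does not increase the distance. -/
theorem hellSum_cons {p : ℝ} (h0 : 0 ≤ p) (h1 : p ≤ 1) (a : Bool) {n : ℕ} {w w' : List Bool}
    (hw : w.length = n) (hw' : w'.length = n) :
    hellSum p (n + 1) (a :: w) (a :: w') ≤ hellSum p n w w' := by
  have hq : 0 ≤ 1 - p := by linarith
  have h0' : hell p (a :: w) (a :: w') [] = (1 - p) * hell p w w' [] := by
    simp only [hell, prob, emb_nil, List.length_cons, List.length_nil, Nat.sub_zero, pow_zero,
      Nat.cast_one, one_mul, mul_one, hw, hw', sub_self]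
    ring
  have hstep : ∀ L, wordSum (L + 1) (hell p (a :: w) (a :: w')) ≤
      (1 - p) * wordSum (L + 1) (hell p w w') + p * wordSum L (hell p w w') := by
    intro L
    have key : ∀ b r, hell p (a :: w) (a :: w') (b :: r) ≤
        (1 - p) * hell p w w' (b :: r) + if a = b then p * hell p w w' r else 0 := by
      intro b r
      simp only [hell, prob_cons]
      by_cases e : a = b
      · simp only [e, if_true]
        refine (sqrt_mix (mul_nonneg hq (prob_nonneg h0 h1 _ _))
          (mul_nonneg h0 (prob_nonneg h0 h1 _ _)) (mul_nonneg hq (prob_nonneg h0 h1 _ _))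
          (mul_nonneg h0 (prob_nonneg h0 h1 _ _))).trans (le_of_eq ?_)
        simp only [Real.sqrt_mul hq, Real.sqrt_mul h0, ← mul_sub, mul_pow, Real.sq_sqrt hq,
          Real.sq_sqrt h0]
      · simp only [e, if_false, add_zero, Real.sqrt_mul hq, ← mul_sub, mul_pow, Real.sq_sqrt hq,
          le_refl]
    simp only [wordSum, wordSum_eq_sum]
    cases a
    · refine (add_le_add (Finset.sum_le_sum fun r _ => key false r)
        (Finset.sum_le_sum fun r _ => key true r)).trans (le_of_eq ?_)
      simp only [if_true, Bool.false_eq_true, if_false, add_zero, Finset.sum_add_distrib,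
        ← Finset.mul_sum]
      ring
    · refine (add_le_add (Finset.sum_le_sum fun r _ => key false r)
        (Finset.sum_le_sum fun r _ => key true r)).trans (le_of_eq ?_)
      simp only [if_true, Bool.true_eq_false, if_false, add_zero, Finset.sum_add_distrib,
        ← Finset.mul_sum]
      ring
  have hlast : wordSum (n + 1) (hell p w w') = 0 := by
    rw [wordSum_eq_sum]
    refine Finset.sum_eq_zero fun t ht => ?_
    rw [mem_words] at ht
    simp [hell, prob, emb_eq_zero_of_lt (show w.length < t.length by omega),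
      emb_eq_zero_of_lt (show w'.length < t.length by omega)]
  unfold hellSum
  rw [Finset.sum_range_succ' _ (n + 1)]
  refine (add_le_add (Finset.sum_le_sum fun L _ => hstep L) le_rfl).trans (le_of_eq ?_)
  rw [Finset.sum_add_distrib, ← Finset.mul_sum, ← Finset.mul_sum,
    Finset.sum_range_succ (fun L => wordSum (L + 1) (hell p w w')) n, hlast,
    Finset.sum_range_succ' (fun L => wordSum L (hell p w w')) n]
  simp only [wordSum, h0']
  ring

/-- Traces read off from a subset of the positions. -/
theorem sum_subsets (p : ℝ) : ∀ {n : ℕ} (x : Fin n → Bool) (F : List Bool → ℝ),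
    ∑ S : Finset (Fin n), p ^ #S * (1 - p) ^ (n - #S) *
      F (((List.finRange n).filter (fun i => i ∈ S)).map x) = expect p (List.ofFn x) F := by
  intro n
  induction n with
  | zero =>
    intro x F
    rw [show (univ : Finset (Finset (Fin 0))) = {∅} from rfl]
    simp [expect]
  | succ n ih =>
    intro x F
    have hsplit : (univ : Finset (Fin (n + 1))) =
        insert 0 ((univ : Finset (Fin n)).map (Fin.succEmb n)) := by
      ext i
      cases i using Fin.cases <;> simp
    have hne : (0 : Fin (n + 1)) ∉ (univ : Finset (Fin n)).map (Fin.succEmb n) := by simp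
    rw [← Finset.powerset_univ, hsplit, Finset.sum_powerset_insert hne, List.ofFn_succ, expect,
      ← ih (fun i => x i.succ), ← ih (fun i => x i.succ), mul_sum, mul_sum, ← powerset_univ]
    have hmap : ((univ : Finset (Fin n)).map (Fin.succEmb n)).powerset =
        (univ : Finset (Fin n)).powerset.map (Finset.mapEmbedding (Fin.succEmb n)).toEmbedding := by
      ext S
      simp only [mem_powerset, Finset.mem_map, RelEmbedding.coe_toEmbedding,
        Finset.mapEmbedding_apply, subset_map_iff]
      exact ⟨fun ⟨u, hu, e⟩ => ⟨u, hu, e.symm⟩, fun ⟨u, hu, e⟩ => ⟨u, hu, e.symm⟩⟩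
    have hmem : ∀ (S : Finset (Fin n)) (i : Fin n),
        i.succ ∈ S.map (Fin.succEmb n) ↔ i ∈ S := fun S i => by simp [Fin.succ_inj]
    have h00 : ∀ S : Finset (Fin n), (0 : Fin (n + 1)) ∉ S.map (Fin.succEmb n) := fun S => by simp
    rw [hmap, sum_map, sum_map]
    congr 1 <;> refine Finset.sum_congr rfl fun S _ => ?_
    · simp only [RelEmbedding.coe_toEmbedding, Finset.mapEmbedding_apply, card_map,
        List.finRange_succ, List.filter_cons, h00, decide_false, Bool.false_eq_true, if_false,
        List.filter_map, List.map_map, Function.comp_def, hmem]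
      rw [show n + 1 - #S = n - #S + 1 by have := card_le_univ S; simp at this; omega, pow_succ]
      ring
    · simp only [RelEmbedding.coe_toEmbedding, Finset.mapEmbedding_apply,
        card_insert_of_notMem (h00 S), card_map, List.finRange_succ, List.filter_cons,
        mem_insert, true_or, decide_true, if_true, List.filter_map, List.map_map, List.map_cons,
        Function.comp_def, Fin.succ_ne_zero, false_or, hmem, Nat.add_sub_add_right, pow_succ]
      ring

/-- Distinguishing from `m` samples costs `m` times the Hellinger distance. -/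
theorem sample_bound {ι : Type*} [DecidableEq ι] (T : Finset ι) (P Q : ι → ℝ)
    (hP : ∀ t, 0 ≤ P t) (hQ : ∀ t, 0 ≤ Q t) (hP1 : ∑ t ∈ T, P t = 1) (hQ1 : ∑ t ∈ T, Q t = 1)
    (m : ℕ) (φ : (Fin m → ι) → ℝ) (hφ0 : ∀ s, 0 ≤ φ s) (hφ1 : ∀ s, φ s ≤ 1) :
    (∑ s ∈ Fintype.piFinset fun _ : Fin m => T, (∏ j, P (s j)) * φ s -
      ∑ s ∈ Fintype.piFinset fun _ : Fin m => T, (∏ j, Q (s j)) * φ s) ^ 2 ≤
        m * ∑ t ∈ T, (Real.sqrt (P t) - Real.sqrt (Q t)) ^ 2 := by
  set X := Fintype.piFinset fun _ : Fin m => T with hX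
  have htot : ∀ R : ι → ℝ, ∑ s ∈ X, ∏ j, R (s j) = (∑ t ∈ T, R t) ^ m := fun R => by
    rw [hX, Finset.sum_prod_piFinset]
    simp
  have hPX : ∑ s ∈ X, ∏ j, P (s j) = 1 := by rw [htot, hP1, one_pow]
  have hQX : ∑ s ∈ X, ∏ j, Q (s j) = 1 := by rw [htot, hQ1, one_pow]
  set b := ∑ t ∈ T, Real.sqrt (P t) * Real.sqrt (Q t) with hb
  have hH : ∑ t ∈ T, (Real.sqrt (P t) - Real.sqrt (Q t)) ^ 2 = 2 * (1 - b) := by
    simp only [sub_sq, Real.sq_sqrt (hP _), Real.sq_sqrt (hQ _), sum_add_distrib, sum_sub_distrib,
      hP1, hQ1, mul_assoc, ← mul_sum, hb]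
    ring
  have hb0 : 0 ≤ b := Finset.sum_nonneg fun t _ => by positivity
  set A := fun s : Fin m → ι => Real.sqrt (∏ j, P (s j))
  set B := fun s : Fin m → ι => Real.sqrt (∏ j, Q (s j))
  have hA : ∀ s, A s ^ 2 = ∏ j, P (s j) := fun s => Real.sq_sqrt (prod_nonneg fun _ _ => hP _)
  have hB : ∀ s, B s ^ 2 = ∏ j, Q (s j) := fun s => Real.sq_sqrt (prod_nonneg fun _ _ => hQ _)
  have hbm : ∑ s ∈ X, A s * B s = b ^ m := by
    rw [hb, ← htot]
    refine Finset.sum_congr rfl fun s _ => ?_
    rw [prod_mul_distrib, ← Real.sqrt_prod _ fun j _ => hP (s j),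
      ← Real.sqrt_prod _ fun j _ => hQ (s j)]
  calc (∑ s ∈ X, (∏ j, P (s j)) * φ s - ∑ s ∈ X, (∏ j, Q (s j)) * φ s) ^ 2
      = (∑ s ∈ X, (A s - B s) * ((A s + B s) * (φ s - 1 / 2))) ^ 2 := by
        congr 1
        have e : ∀ s, (A s - B s) * ((A s + B s) * (φ s - 1 / 2)) =
            (∏ j, P (s j)) * φ s - (∏ j, Q (s j)) * φ s -
              1 / 2 * ((∏ j, P (s j)) - ∏ j, Q (s j)) := fun s => by
          rw [← hA, ← hB]; ring
        simp only [e, sum_sub_distrib, ← mul_sum, hPX, hQX]
        ring
    _ ≤ (∑ s ∈ X, (A s - B s) ^ 2) * ∑ s ∈ X, ((A s + B s) * (φ s - 1 / 2)) ^ 2 :=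
        Finset.sum_mul_sq_le_sq_mul_sq _ _ _
    _ ≤ (∑ s ∈ X, (A s - B s) ^ 2) * ∑ s ∈ X, 1 / 4 * (A s + B s) ^ 2 := by
        refine mul_le_mul_of_nonneg_left (Finset.sum_le_sum fun s _ => ?_)
          (Finset.sum_nonneg fun s _ => sq_nonneg _)
        rw [mul_pow, mul_comm (1 / 4 : ℝ)]
        refine mul_le_mul_of_nonneg_left ?_ (sq_nonneg _)
        nlinarith [hφ0 s, hφ1 s]
    _ = 1 - (b ^ m) ^ 2 := by
        rw [← mul_sum]
        simp only [sub_sq, add_sq, sum_add_distrib, sum_sub_distrib, mul_assoc, ← mul_sum, hA, hB,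
          hPX, hQX, hbm]
        ring
    _ ≤ 2 * m * (1 - b) := by
        have := one_add_mul_le_pow (a := b - 1) (by linarith) (2 * m)
        rw [add_sub_cancel] at this
        push_cast at this
        rw [← pow_mul, mul_comm m 2]
        linarith
    _ = _ := by rw [hH]; ring

end Vale.Agent.P321
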