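import Vale.Agent.P321.Drift

/-!
# P321: bounds on one increment
-/

namespace Vale.Agent.P321.Cls

open Finset

variable {P : Cls} {κ : ℝ} {K : ℕ}

theorem abs_le_of_mul {x b y c : ℝ} (hx : |x| ≤ b) (hy : |y| ≤ c) : |x * y| ≤ b * c := by
  rw [abs_mul]
  exact mul_le_mul hx hy (abs_nonneg _) ((abs_nonneg _).trans hx)

variable (G : P.Good κ K)
include G

theorem Q_le_S {L y : ℕ} (h : P.Near L y) : P.Q K L y ≤ 37 * P.S L y := by
  have hK := G.K_pos
  have hK1 : (1 : ℝ) ≤ K := by nlinarith [G.big, G.κ1]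
  rw [Q, mul_comm 37]
  refine mul_le_mul_of_nonneg_left ?_ (S_nonneg _ _)
  have h1 : 1 / (K : ℝ) ≤ 1 := by rw [div_le_one hK]; exact hK1
  have h2 : P.Z L y ^ 2 / (K : ℝ) ^ 4 ≤ 36 := by
    rw [div_le_iff₀ (by positivity)]
    nlinarith [Z_abs_le G h, abs_nonneg (P.Z L y), sq_abs (P.Z L y)]
  linarith

theorem sq_d_le {L y : ℕ} (h : P.Near (L + 1) y) :
    P.d (L + 1) y ^ 2 ≤ 1 / κ ^ 4 * (P.S (L + 1) y * P.Q K (L + 1) y) := by
  have hK := G.K_pos
  have hκ := G.κ0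
  have hd := pow_le_pow_left₀ (by positivity) (abs_d_le G h) 2
  rw [mul_pow, mul_pow |P.Z (L + 1) y|, sq_abs, sq_abs] at hd
  refine le_of_mul_le_mul_right ?_ (show 0 < κ ^ 4 * (K : ℝ) ^ 4 by positivity)
  calc P.d (L + 1) y ^ 2 * (κ ^ 4 * (K : ℝ) ^ 4)
      = (κ ^ 2 * (K : ℝ) ^ 2) ^ 2 * P.d (L + 1) y ^ 2 := by ring
    _ ≤ P.Z (L + 1) y ^ 2 * P.S (L + 1) y ^ 2 := hd
    _ ≤ P.S (L + 1) y ^ 2 * ((K : ℝ) ^ 3 + P.Z (L + 1) y ^ 2) := by
        linear_combination mul_nonneg (sq_nonneg (P.S (L + 1) y)) (pow_nonneg hK.le 3)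
    _ = _ := by simp only [Q]; field_simp

/-- States below the last live one carry nothing. -/
theorem incr_dead {s : Bool} {L y : ℕ} (h : P.Reach s (L + 1) y)
    (hl : P.u y + 1 < P.ℓ - (L + 1)) (b : Bool) : P.incr s (L + 1) y b = 0 := by
  obtain ⟨a0, a1, -, a3⟩ := dead hl
  have hL := h.hL
  have hv := v_sub_ge G h.vert
  have hv0 : (0 : ℝ) < P.v y := by linarith [G.big, Nat.cast_nonneg (α := ℝ) L]
  have hf : P.f L y = 0 := by
    have := f_mul G (y := y) hL
    rw [a0, a1] at this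
    simpa [hv0.ne'] using this
  have hn : P.u (nxt s y b) + 1 < P.ℓ - L := by
    have : P.u (nxt s y b) ≤ P.u y + 1 := by
      simp only [u, nxt]; split_ifs <;> omega
    omega
  obtain ⟨n0, -, -, n3⟩ := dead hn
  simp [incr, pot, a0, a3, n0, n3, hf]

/-- The basic quantities at a live state. -/
theorem live_data {s : Bool} {L y : ℕ} (h : P.Reach s (L + 1) y)
    (hl : P.ℓ - (L + 1) ≤ P.u y + 1) :
    1 ≤ y ∧ (∀ y', (y' = y ∨ s = false ∧ y' + 1 = y) →
      |P.α L y' - P.α (L + 1) y| ≤ 34 / (κ ^ 3 * K) ∧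
      |P.β L y' - P.β (L + 1) y| ≤ 34 / (κ ^ 3 * K)) ∧
    |P.d L y - P.d (L + 1) y| ≤ 42 / κ ^ 4 * (P.Q K (L + 1) y + P.Q K L y) ∧
    |P.α (L + 1) y| ≤ 1 ∧ |P.β (L + 1) y| ≤ 3 / κ ∧ |P.β L y| ≤ 3 / κ ∧
    0 ≤ P.ρ (L + 1) y ∧ P.ρ (L + 1) y ≤ 1 ∧ 0 < 2 - a (L + 1) y * P.ρ (L + 1) y ∧
    0 < a (L + 1) y := by
  obtain ⟨h1, h2, -, -⟩ := live G h.near hl
  have hκK : 0 ≤ κ * K := by linarith [G.big]
  push_cast at h1
  have hy : 1 ≤ y := by
    have : (1 : ℝ) ≤ y := by linarith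
    exact_mod_cast this
  have hlip : ∀ y', (y' = y ∨ s = false ∧ y' + 1 = y) →
      |P.α L y' - P.α (L + 1) y| ≤ 34 / (κ ^ 3 * K) ∧
      |P.β L y' - P.β (L + 1) y| ≤ 34 / (κ ^ 3 * K) := by
    rintro y' (rfl | ⟨rfl, hy'⟩)
    · exact coef_lip G h.near h.vert (Or.inl rfl) h1 h2
    · refine coef_lip G h.near ⟨?_, ?_, ?_, ?_⟩ (Or.inr hy') h1 h2
      · have := h.hL; omega
      · have := h.hy; omega
      · have := h.hx; have := h.hy; simp only [Bool.false_eq_true, if_false] at *; omega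
      · have := h.hy2; simp only [Bool.false_eq_true, if_false] at *; omega
  obtain ⟨r0, r1, a0, d0, α0, β0⟩ := coef_le G h.near (by linarith)
  obtain ⟨-, -, -, -, -, β1⟩ := coef_le G h.vert (by linarith)
  refine ⟨hy, hlip, ?_, α0, β0, β1, r0, r1, by linarith, by linarith [G.κ0]⟩
  obtain ⟨L', rfl⟩ : ∃ L', L = L' + 1 := by
    refine ⟨L - 1, (Nat.succ_pred_eq_of_pos ?_).symm⟩
    have : (1 : ℝ) ≤ L := by linarith
    exact_mod_cast this
  exact second_diff G h.near h.vert hl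

omit G in
theorem pot_false (L y : ℕ) : P.pot false L y = P.α L y * P.g L y + P.β L y * P.d L y := rfl

omit G in
theorem pot_true (L y : ℕ) : P.pot true L y = P.α L y * P.g L y := by simp [pot]

theorem small_terms {L y : ℕ} (h : P.Near (L + 1) y) (hL : L + 1 ≤ P.ℓ) :
    0 ≤ P.g L y / P.v y ∧ P.g L y / P.v y ≤ P.S (L + 1) y / (κ * K) ∧
      P.f L y = -P.ρ (L + 1) y * P.d (L + 1) y + P.g L y / P.v y ∧
      (1 ≤ y → P.g L (y - 1) = P.g (L + 1) y + P.d (L + 1) y * (1 - P.ρ (L + 1) y) +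
        P.g L y / P.v y) ∧
      P.g L y = P.g (L + 1) y + P.d (L + 1) y ∧ P.g L y ≤ P.S (L + 1) y := by
  have hv := v_sub_ge G h
  push_cast at hv
  have hv0 : (0 : ℝ) < P.v y := by linarith [G.big, Nat.cast_nonneg (α := ℝ) L]
  have hg : P.gv (L + 1) y = P.g L y := gv_eq_g_next y hL
  have hd : P.g L y = P.g (L + 1) y + P.d (L + 1) y := by rw [d, hg]; ring
  have hS : P.g L y ≤ P.S (L + 1) y := by rw [S, hg]; linarith [g_nonneg (P := P) (L + 1) y]
  refine ⟨div_nonneg (g_nonneg _ _) hv0.le, div_le_div₀ (S_nonneg _ _) hS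
    (by linarith [G.big]) (by linarith [Nat.cast_nonneg (α := ℝ) L]), ?_, ?_, hd, hS⟩
  · have := f_mul G (y := y) hL
    rw [hg] at this
    simp only [ρ]
    push_cast
    field_simp
    linear_combination this - ((L : ℝ) + 1) * hd
  · intro hy
    have := g_jump hy h.hy hL
    rw [hg] at this
    simp only [ρ]
    push_cast
    field_simp
    linear_combination this + ((P.v y : ℝ) - L - 1) * hd

/-- The mean of an increment is of second order. -/
theorem drift_le {s : Bool} {L y : ℕ} (h : P.Reach s (L + 1) y) :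
    |P.drift s (L + 1) y| ≤ 400 / κ ^ 5 * (P.Q K (L + 1) y + P.Q K L y) := by
  have hK := G.K_pos
  have hκ := G.κ0
  have hκ1 := G.κ1
  have hQ0 : 0 ≤ P.Q K (L + 1) y + P.Q K L y := add_nonneg (Q_nonneg _ _ _) (Q_nonneg _ _ _)
  rcases le_or_gt (P.ℓ - (L + 1)) (P.u y + 1) with hl | hl
  swap
  · simp only [drift, urnMean, incr_dead G h hl, mul_zero, add_zero, ite_self, abs_zero]
    positivity
  obtain ⟨hy, hlip, hdd, hα0, hβ0, hβ1, hr0, hr1, hden, hapos⟩ := live_data G h hl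
  obtain ⟨he0, he, hf, hgj, hd, hg1⟩ := small_terms G h.near h.hL
  obtain ⟨hα1, hβd⟩ := hlip y (Or.inl rfl)
  have hdS : |P.d (L + 1) y| ≤ P.S (L + 1) y := abs_d_le_S _ _
  have hS := S_nonneg (P := P) (L + 1) y
  set S₀ := P.S (L + 1) y with hS₀
  set e := P.g L y / P.v y with hedef
  set δ := (1 : ℝ) / ((L : ℝ) + 2) with hδ
  set W := (P.Q K (L + 1) y + P.Q K L y) / κ ^ 5 with hW
  have hSK : S₀ / K ≤ P.Q K (L + 1) y + P.Q K L y :=
    (S_div_le_Q _ _ _).trans (le_add_of_nonneg_right (Q_nonneg _ _ _))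
  have hpow : ∀ m, m ≤ 5 → κ ^ 5 ≤ κ ^ m := fun m hm => pow_le_pow_of_le_one hκ.le hκ1 hm
  have b1 : e ≤ W := he.trans (by
    rw [hW, mul_comm κ, ← div_div]
    exact div_le_div₀ hQ0 hSK (by positivity) (by simpa using hpow 1 (by norm_num)))
  have b34 : ∀ {x z : ℝ}, |x| ≤ 34 / (κ ^ 3 * K) → |z| ≤ 2 * S₀ → |x * z| ≤ 68 * W := by
    intro x z hx hz
    refine (abs_le_of_mul hx hz).trans ?_
    rw [show 34 / (κ ^ 3 * (K : ℝ)) * (2 * S₀) = 68 * (S₀ / K / κ ^ 3) by ring, hW]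
    exact mul_le_mul_of_nonneg_left
      (div_le_div₀ hQ0 hSK (by positivity) (hpow 3 (by norm_num))) (by norm_num)
  have bdd : |P.β L y * (P.d L y - P.d (L + 1) y)| ≤ 126 * W := by
    refine (abs_le_of_mul hβ1 hdd).trans (le_of_eq ?_)
    rw [hW]
    ring
  have bg : |P.g L y| ≤ 2 * S₀ := by rw [abs_of_nonneg (g_nonneg _ _)]; linarith
  have bd : |P.d (L + 1) y| ≤ 2 * S₀ := by linarith
  have he' : |e| ≤ W := by rw [abs_of_nonneg he0]; exact b1
  have hy2 : (2 : ℝ) * y ≤ ((L : ℝ) + 1) + (if s then 0 else 1) := by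
    have := h.hy2
    cases s <;> simp only [Bool.false_eq_true, if_false, if_true] at this ⊢ <;>
      exact_mod_cast this
  rw [show 400 / κ ^ 5 * (P.Q K (L + 1) y + P.Q K L y) = 400 * W by rw [hW]; ring]
  have mulone : ∀ {c x B : ℝ}, 0 ≤ c → c ≤ 1 → |x| ≤ B → |c * x| ≤ B := by
    intro c x B h0 h1 hx
    rw [abs_mul, abs_of_nonneg h0]
    exact (mul_le_of_le_one_left (abs_nonneg _) h1).trans hx
  cases s with
  | false =>
    simp only [Bool.false_eq_true, if_false] at hy2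
    set a₀ := a (L + 1) y with ha₀
    have ha1 : a₀ ≤ 1 := by
      rw [ha₀, a, div_le_one (by positivity)]
      push_cast
      linarith
    have hgj' := hgj hy
    obtain ⟨hαj, -⟩ := hlip (y - 1) (Or.inr ⟨rfl, Nat.sub_add_cancel hy⟩)
    have bgj : |P.g L (y - 1)| ≤ 2 * S₀ := by
      rw [abs_of_nonneg (g_nonneg _ _), hgj']
      have hgS : P.g (L + 1) y + P.g L y = S₀ := by
        rw [hS₀, S, gv_eq_g_next y h.hL]
      have : P.d (L + 1) y * (1 - P.ρ (L + 1) y) ≤ |P.d (L + 1) y| := by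
        refine (le_abs_self _).trans ?_
        rw [abs_mul, abs_of_nonneg (sub_nonneg.2 hr1)]
        exact mul_le_of_le_one_right (abs_nonneg _) (by linarith)
      have : e ≤ P.g L y := by
        have hv := v_sub_ge G h.vert
        exact div_le_self (g_nonneg _ _) (by linarith [G.big, Nat.cast_nonneg (α := ℝ) L])
      linarith
    have key : a₀ * P.β (L + 1) y = -a₀ * P.ρ (L + 1) y - P.α (L + 1) y := by
      rw [β, mul_sub, mul_div_cancel₀ _ hapos.ne']
      ring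
    have key2 : P.α (L + 1) y * (2 - a₀ * P.ρ (L + 1) y) = -P.ρ (L + 1) y := by
      rw [α, div_mul_cancel₀ _ hden.ne']
    have e_m : P.drift false (L + 1) y = (1 - a₀) * e +
        -((1 - a₀) * ((P.α L y - P.α (L + 1) y) * P.g L y)) +
        -((1 - a₀) * (P.β L y * (P.d L y - P.d (L + 1) y))) +
        -((1 - a₀) * ((P.β L y - P.β (L + 1) y) * P.d (L + 1) y)) +
        -(a₀ * ((P.α L (y - 1) - P.α (L + 1) y) * P.g L (y - 1))) +
        -(a₀ * (P.α (L + 1) y * e)) := by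
      simp only [drift, urnMean, incr, pot_false, pot_true, nxt, Bool.false_eq_true, if_false,
        if_true, and_true, and_false, Nat.add_sub_cancel]
      rw [show 2 * (y : ℝ) / (((L + 1 : ℕ) : ℝ) + 1) = a₀ from rfl, hf, hgj', hd]
      linear_combination P.d (L + 1) y * key - P.d (L + 1) y * key2
    rw [e_m]
    have t1 := mulone (c := 1 - a₀) (by linarith) (by linarith) he'
    have t2 := mulone (c := 1 - a₀) (by linarith) (by linarith) (b34 hα1 bg)
    have t3 := mulone (c := 1 - a₀) (by linarith) (by linarith) bdd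
    have t4 := mulone (c := 1 - a₀) (by linarith) (by linarith) (b34 hβd bd)
    have t5 := mulone hapos.le ha1 (b34 hαj bgj)
    have t6 : |a₀ * (P.α (L + 1) y * e)| ≤ W :=
      mulone hapos.le ha1 ((abs_le_of_mul hα0 he').trans (one_mul W).le)
    rw [abs_le]
    constructor <;> linarith [abs_le.1 t1, abs_le.1 t2, abs_le.1 t3, abs_le.1 t4, abs_le.1 t5,
      abs_le.1 t6]
  | true =>
    simp only [if_true, add_zero] at hy2
    set a₀ := a (L + 1) y with ha₀
    set a₁ := a₀ + δ with ha₁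
    have hδ0 : 0 ≤ δ := by positivity
    have ha1 : a₁ ≤ 1 := by
      rw [ha₁, ha₀, a, hδ]
      push_cast
      rw [show (L : ℝ) + 1 + 1 = L + 2 by ring, ← add_div, div_le_one (by positivity)]
      linarith
    have key : a₀ * P.β (L + 1) y = -a₀ * P.ρ (L + 1) y - P.α (L + 1) y := by
      rw [β, mul_sub, mul_div_cancel₀ _ hapos.ne']
      ring
    have e_m : P.drift true (L + 1) y = a₁ * e + -(δ * (P.ρ (L + 1) y * P.d (L + 1) y)) +
        -((P.α L y - P.α (L + 1) y) * P.g L y) +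
        -(a₁ * (P.β L y * (P.d L y - P.d (L + 1) y))) +
        -(a₁ * ((P.β L y - P.β (L + 1) y) * P.d (L + 1) y)) +
        -(δ * (P.β (L + 1) y * P.d (L + 1) y)) := by
      simp only [drift, urnMean, incr, pot_false, pot_true, nxt, Bool.false_eq_true, if_false,
        if_true, false_and, Nat.add_sub_cancel, reduceCtorEq]
      rw [show (2 * (y : ℝ) + 1) / (((L + 1 : ℕ) : ℝ) + 1) = a₁ by
        rw [ha₁, ha₀, a, hδ]; push_cast; rw [← show (L : ℝ) + 1 + 1 = L + 2 by ring]; ring,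
        hf, hd, ha₁]
      linear_combination -P.d (L + 1) y * key
    rw [e_m]
    have hδK : δ ≤ 1 / (κ * K) := by
      refine one_div_le_one_div_of_le (by positivity) ?_
      have := (live G h.near hl).1
      push_cast at this
      linarith
    have hδS : δ * (2 * S₀) / κ ≤ 2 * W := by
      calc δ * (2 * S₀) / κ ≤ 1 / (κ * K) * (2 * S₀) / κ := by gcongr
        _ = 2 * (S₀ / K / κ ^ 2) := by ring
        _ ≤ 2 * W := mul_le_mul_of_nonneg_left
            (div_le_div₀ hQ0 hSK (by positivity) (hpow 2 (by norm_num))) (by norm_num)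
    have hδS' : δ * (2 * S₀) ≤ δ * (2 * S₀) / κ := le_div_self (by positivity) hκ hκ1
    have ha0' : 0 ≤ a₁ := add_nonneg hapos.le hδ0
    have t1 := mulone ha0' ha1 he'
    have t2 : |δ * (P.ρ (L + 1) y * P.d (L + 1) y)| ≤ 2 * W := by
      refine (abs_le_of_mul (le_of_eq (abs_of_nonneg hδ0)) ?_).trans (hδS'.trans hδS)
      exact (mulone hr0 hr1 bd)
    have t3 := b34 hα1 bg
    have t4 := mulone ha0' ha1 bdd
    have t5 := mulone ha0' ha1 (b34 hβd bd)
    have t6 : |δ * (P.β (L + 1) y * P.d (L + 1) y)| ≤ 6 * W := by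
      refine (abs_le_of_mul (le_of_eq (abs_of_nonneg hδ0)) (abs_le_of_mul hβ0 bd)).trans ?_
      rw [show δ * (3 / κ * (2 * S₀)) = 3 * (δ * (2 * S₀) / κ) by ring]
      linarith
    rw [abs_le]
    constructor <;> linarith [abs_le.1 t1, abs_le.1 t2, abs_le.1 t3, abs_le.1 t4, abs_le.1 t5,
      abs_le.1 t6]

/-- An increment is of first order. -/
theorem incr_le {s : Bool} {L y : ℕ} (h : P.Reach s (L + 1) y) (b : Bool) :
    |P.incr s (L + 1) y b| ≤
      220 / κ ^ 5 * (|P.d (L + 1) y| + (P.Q K (L + 1) y + P.Q K L y)) := by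
  have hK := G.K_pos
  have hκ := G.κ0
  have hκ1 := G.κ1
  have hQ0 : 0 ≤ P.Q K (L + 1) y + P.Q K L y := add_nonneg (Q_nonneg _ _ _) (Q_nonneg _ _ _)
  rcases le_or_gt (P.ℓ - (L + 1)) (P.u y + 1) with hl | hl
  swap
  · simp only [incr_dead G h hl, abs_zero]
    positivity
  obtain ⟨hy, hlip, hdd, hα0, hβ0, hβ1, hr0, hr1, -, -⟩ := live_data G h hl
  obtain ⟨he0, he, hf, hgj, hd, hg1⟩ := small_terms G h.near h.hL
  obtain ⟨hα1, -⟩ := hlip y (Or.inl rfl)
  set S₀ := P.S (L + 1) y with hS₀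
  set e := P.g L y / P.v y with hedef
  set D₀ := |P.d (L + 1) y| with hD₀
  set W := (D₀ + (P.Q K (L + 1) y + P.Q K L y)) / κ ^ 5 with hW
  have hD0 : 0 ≤ D₀ := abs_nonneg _
  have hpow : ∀ m, m ≤ 5 → κ ^ 5 ≤ κ ^ m := fun m hm => pow_le_pow_of_le_one hκ.le hκ1 hm
  have hWD : ∀ m, m ≤ 5 → D₀ / κ ^ m ≤ W := fun m hm =>
    div_le_div₀ (by positivity) (by linarith) (by positivity) (hpow m hm)
  have hWS : ∀ m, m ≤ 5 → S₀ / K / κ ^ m ≤ W := fun m hm =>
    div_le_div₀ (by positivity) (by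
      have := S_div_le_Q (P := P) K (L + 1) y
      have := Q_nonneg (P := P) K L y
      linarith) (by positivity) (hpow m hm)
  have hWD0 : D₀ ≤ W := by simpa using hWD 0 (by norm_num)
  have he' : |e| ≤ W := by
    rw [abs_of_nonneg he0]
    refine he.trans (le_of_eq_of_le ?_ (hWS 1 (by norm_num)))
    rw [pow_one, mul_comm κ, div_div]
  have bρ : |P.ρ (L + 1) y * P.d (L + 1) y| ≤ W :=
    (abs_le_of_mul (show |P.ρ (L + 1) y| ≤ 1 by rw [abs_of_nonneg hr0]; exact hr1)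
      (le_refl D₀)).trans (by linarith)
  have b34 : ∀ {x z : ℝ}, |x| ≤ 34 / (κ ^ 3 * K) → |z| ≤ 2 * S₀ → |x * z| ≤ 68 * W := by
    intro x z hx hz
    refine (abs_le_of_mul hx hz).trans ?_
    rw [show 34 / (κ ^ 3 * (K : ℝ)) * (2 * S₀) = 68 * (S₀ / K / κ ^ 3) by ring]
    linarith [hWS 3 (by norm_num)]
  have bβ0 : |P.β (L + 1) y * P.d (L + 1) y| ≤ 3 * W := by
    refine (abs_le_of_mul hβ0 le_rfl).trans ?_
    rw [show 3 / κ * D₀ = 3 * (D₀ / κ ^ 1) by ring]
    linarith [hWD 1 (by norm_num)]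
  have hS : 0 ≤ S₀ := S_nonneg _ _
  have bg : |P.g L y| ≤ 2 * S₀ := by rw [abs_of_nonneg (g_nonneg _ _)]; linarith
  have bα : |(P.α L y - P.α (L + 1) y) * P.g L y| ≤ 68 * W := b34 hα1 bg
  have bαd : |P.α (L + 1) y * P.d (L + 1) y| ≤ W :=
    (abs_le_of_mul hα0 le_rfl).trans (by linarith)
  rw [show 220 / κ ^ 5 * (D₀ + (P.Q K (L + 1) y + P.Q K L y)) = 220 * W by rw [hW]; ring]
  cases b with
  | false =>
    have bβ1 : |P.β L y * P.d (L + 1) y| ≤ 3 * W := by
      refine (abs_le_of_mul hβ1 le_rfl).trans ?_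
      rw [show 3 / κ * D₀ = 3 * (D₀ / κ ^ 1) by ring]
      linarith [hWD 1 (by norm_num)]
    have bdd : |P.β L y * (P.d L y - P.d (L + 1) y)| ≤ 126 * W := by
      refine (abs_le_of_mul hβ1 hdd).trans ?_
      rw [show 3 / κ * (42 / κ ^ 4 * (P.Q K (L + 1) y + P.Q K L y)) =
        126 * ((P.Q K (L + 1) y + P.Q K L y) / κ ^ 5) by ring, hW]
      exact mul_le_mul_of_nonneg_left
        (div_le_div_of_nonneg_right (by linarith) (by positivity)) (by norm_num)
    have e1 : nxt s y false = y := by simp [nxt]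
    cases s
    all_goals
      simp only [incr, e1, pot_false, pot_true, Nat.add_sub_cancel, Bool.false_eq_true, if_false]
      rw [hf, show P.α L y * P.g L y = (P.α L y - P.α (L + 1) y) * P.g L y +
        (P.α (L + 1) y * P.g (L + 1) y + P.α (L + 1) y * P.d (L + 1) y) by rw [hd]; ring,
        show P.β L y * P.d L y = P.β L y * (P.d L y - P.d (L + 1) y) + P.β L y * P.d (L + 1) y
          by ring, neg_mul, abs_le]
      constructor <;> linarith [abs_le.1 he', abs_le.1 bρ, abs_le.1 bα, abs_le.1 bαd,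
        abs_le.1 bβ0, abs_le.1 bβ1, abs_le.1 bdd]
  | true =>
    cases s with
    | true =>
      simp only [incr, pot_true, nxt, Nat.add_sub_cancel, if_true, reduceCtorEq, false_and,
        if_false]
      rw [show P.α L y * P.g L y = (P.α L y - P.α (L + 1) y) * P.g L y +
        (P.α (L + 1) y * P.g (L + 1) y + P.α (L + 1) y * P.d (L + 1) y) by rw [hd]; ring, abs_le]
      constructor <;> linarith [abs_le.1 bα, abs_le.1 bαd, hD0]
    | false =>
      obtain ⟨hαj, -⟩ := hlip (y - 1) (Or.inr ⟨rfl, Nat.sub_add_cancel hy⟩)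
      have hdS : D₀ ≤ S₀ := abs_d_le_S _ _
      have hgj' := hgj hy
      have bgj : |P.g L (y - 1)| ≤ 2 * S₀ := by
        rw [abs_of_nonneg (g_nonneg _ _), hgj']
        have hgS : P.g (L + 1) y + P.g L y = S₀ := by rw [hS₀, S, gv_eq_g_next y h.hL]
        have : P.d (L + 1) y * (1 - P.ρ (L + 1) y) ≤ D₀ := by
          refine (le_abs_self _).trans ?_
          rw [abs_mul, abs_of_nonneg (sub_nonneg.2 hr1)]
          exact mul_le_of_le_one_right (abs_nonneg _) (by linarith)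
        have : e ≤ P.g L y := by
          have hv := v_sub_ge G h.vert
          exact div_le_self (g_nonneg _ _) (by linarith [G.big, Nat.cast_nonneg (α := ℝ) L])
        linarith
      have bj := b34 hαj bgj
      have b5 : |P.α (L + 1) y * (P.d (L + 1) y * (1 - P.ρ (L + 1) y) + e)| ≤ 2 * W := by
        refine (abs_le_of_mul hα0 ((abs_add_le _ _).trans (add_le_add ?_ he'))).trans
          (le_of_eq (by ring : 1 * (W + W) = 2 * W))
        rw [abs_mul, abs_of_nonneg (sub_nonneg.2 hr1)]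
        exact (mul_le_of_le_one_right (abs_nonneg _) (by linarith)).trans hWD0
      simp only [incr, pot_false, pot_true, nxt, Nat.add_sub_cancel, if_true, and_self]
      rw [show P.α L (y - 1) * P.g L (y - 1) =
        (P.α L (y - 1) - P.α (L + 1) y) * P.g L (y - 1) + (P.α (L + 1) y * P.g (L + 1) y +
          P.α (L + 1) y * (P.d (L + 1) y * (1 - P.ρ (L + 1) y) + e)) by rw [hgj']; ring, abs_le]
      constructor <;> linarith [abs_le.1 bj, abs_le.1 b5, abs_le.1 bβ0, hD0]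

/-- The state below is controlled by the next state on the trace. -/
theorem vert_le {s b : Bool} {L y : ℕ} (h : P.Step s L y b) :
    P.S L y ≤ 3 / κ * P.S L (nxt s y b) ∧ P.Q K L y ≤ 2000 / κ * P.Q K L (nxt s y b) := by
  have hK := G.K_pos
  have hκ := G.κ0
  have hκ1 := G.κ1
  have hS0 := S_nonneg (P := P) L (nxt s y b)
  by_cases hj : s = false ∧ b = true
  swap
  · rw [show nxt s y b = y from if_neg hj]
    exact ⟨le_mul_of_one_le_left (S_nonneg _ _) (by rw [le_div_iff₀ hκ]; linarith),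
      le_mul_of_one_le_left (Q_nonneg _ _ _) (by rw [le_div_iff₀ hκ]; linarith)⟩
  have hy := h.pos hj.1 hj.2
  rw [show nxt s y b = y - 1 from if_pos hj] at hS0 ⊢
  have hN := h.cur.vert
  have hS : P.S L y ≤ 3 / κ * P.S L (y - 1) := by
    rcases le_or_gt (P.ℓ - L) (P.u y + 1) with hl | hl
    · have hL1 : 1 ≤ L := by
        have := (live G hN hl).1
        have : (1 : ℝ) ≤ L := by linarith [G.big]
        exact_mod_cast this
      obtain ⟨L', rfl⟩ : ∃ L', L = L' + 1 := ⟨L - 1, by omega⟩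
      have j1 := g_jump (P := P) hy h.cur.hy h.cur.hL
      have j2 := g_jump (P := P) hy h.cur.hy (hN.hL)
      have hv := v_sub_ge G hN
      have hv3 := v_le G hN
      push_cast at hv j1
      have n1 := g_nonneg (P := P) (L' + 1 + 1) y
      have n2 := g_nonneg (P := P) (L' + 1) y
      have n3 := g_nonneg (P := P) (L' + 1) (y - 1)
      have n4 := g_nonneg (P := P) L' (y - 1)
      have n5 := gv_nonneg (P := P) (L' + 1) y
      rw [gv_eq_g_next y h.cur.hL] at j1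
      have hv0 : (0 : ℝ) < P.v y := by linarith [G.big, Nat.cast_nonneg (α := ℝ) L']
      simp only [S, gv_eq_g_next (P := P) (y - 1) hN.hL]
      rw [div_mul_eq_mul_div, le_div_iff₀ hκ]
      refine le_of_mul_le_mul_right ?_ hK
      have c1 : P.g (L' + 1) y * (κ * K) ≤ P.g (L' + 1) (y - 1) * (3 * K) := by
        refine le_trans ?_ (mul_le_mul_of_nonneg_left (show (P.v y : ℝ) ≤ 3 * K by linarith) n3)
        rw [j1]
        nlinarith [mul_le_mul_of_nonneg_left hv n2, mul_nonneg n1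
          (show (0 : ℝ) ≤ (L' : ℝ) + 1 + 1 by positivity)]
      have c2 : P.gv (L' + 1) y * (κ * K) ≤ P.g L' (y - 1) * (3 * K) := by
        refine le_trans ?_ (mul_le_mul_of_nonneg_left (show (P.v y : ℝ) ≤ 3 * K by linarith) n4)
        rw [j2]
        nlinarith [mul_le_mul_of_nonneg_left (show κ * K ≤ (P.v y : ℝ) - L' by linarith) n5,
          mul_nonneg n2 (show (0 : ℝ) ≤ (L' : ℝ) + 1 by positivity)]
      linarith
    · rw [(dead hl).2.2.1]
      positivity
  refine ⟨hS, ?_⟩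
  have hZ0 := Z_step G h.cur.near (Or.inl rfl : y = y ∨ y + 1 = y)
  have hZ1 := Z_step G h.cur.near (Or.inr (Nat.sub_add_cancel hy) : y - 1 = y ∨ y - 1 + 1 = y)
  have hZ : P.Z L y ^ 2 ≤ 2 * P.Z L (y - 1) ^ 2 + 648 * (K : ℝ) ^ 2 := by
    have : |P.Z L y - P.Z L (y - 1)| ≤ 18 * K := by
      rw [abs_le] at hZ0 hZ1 ⊢
      constructor <;> linarith [hZ0.1, hZ0.2, hZ1.1, hZ1.2]
    nlinarith [sq_abs (P.Z L y - P.Z L (y - 1)), abs_nonneg (P.Z L y - P.Z L (y - 1)),
      sq_nonneg (P.Z L y - 2 * P.Z L (y - 1))]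
  have hK1 : (1 : ℝ) ≤ K := by nlinarith [G.big]
  have hw : 1 / (K : ℝ) + P.Z L y ^ 2 / (K : ℝ) ^ 4 ≤
      650 * (1 / (K : ℝ) + P.Z L (y - 1) ^ 2 / (K : ℝ) ^ 4) := by
    rw [show 1 / (K : ℝ) + P.Z L y ^ 2 / (K : ℝ) ^ 4 = ((K : ℝ) ^ 3 + P.Z L y ^ 2) / K ^ 4 by
      field_simp, show 650 * (1 / (K : ℝ) + P.Z L (y - 1) ^ 2 / (K : ℝ) ^ 4) =
      (650 * (K : ℝ) ^ 3 + 650 * P.Z L (y - 1) ^ 2) / K ^ 4 by field_simp]
    gcongr ?_ / _
    nlinarith [mul_le_mul_of_nonneg_right hK1 (sq_nonneg (K : ℝ)), sq_nonneg (P.Z L (y - 1))]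
  simp only [Q]
  calc _ ≤ 3 / κ * P.S L (y - 1) * (650 * (1 / (K : ℝ) + P.Z L (y - 1) ^ 2 / (K : ℝ) ^ 4)) :=
        mul_le_mul hS hw (by positivity) (by positivity)
    _ ≤ _ := by
        rw [show 2000 / κ * (P.S L (y - 1) * (1 / (K : ℝ) + P.Z L (y - 1) ^ 2 / (K : ℝ) ^ 4)) =
          3 / κ * P.S L (y - 1) * (2000 / 3 * (1 / (K : ℝ) + P.Z L (y - 1) ^ 2 / (K : ℝ) ^ 4))
          by ring]
        gcongr
        norm_num

end Vale.Agent.P321.Cls
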