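import Vale.Agent.P321.Walk

/-!
# P321: sums along a whole trace
-/

namespace Vale.Agent.P321.Cls

open Finset

variable {P : Cls} {κ : ℝ} {K : ℕ}

theorem step_of_reach {s b : Bool} {r : List Bool}
    (h : P.Reach s (r.length + 1) (pairs (s :: b :: r))) :
    P.Step s r.length (pairs (s :: b :: r)) b ∧
      nxt s (pairs (s :: b :: r)) b = pairs (b :: r) := by
  have hn : nxt s (pairs (s :: b :: r)) b = pairs (b :: r) := by
    cases s <;> cases b <;> simp [nxt, pairs]
  have h2 := two_mul_pairs_le b r
  obtain ⟨hL, hy, hx, hy2⟩ := h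
  refine ⟨⟨⟨hL, hy, hx, hy2⟩, ?_, ?_⟩, hn⟩
  · rintro rfl rfl; simp [pairs]
  · rw [hn]
    have hp : pairs (s :: b :: r) = (if s = false ∧ b = true then 1 else 0) + pairs (b :: r) := rfl
    refine ⟨by omega, by omega, ?_, h2⟩
    cases s <;> cases b <;> simp [hp] at hx hy ⊢ <;> omega

theorem pathSum_le {h h' : Bool → ℕ → ℕ → Bool → ℝ}
    (hh : ∀ s L y b, P.Step s L y b → h s (L + 1) y b ≤ h' s (L + 1) y b) (s : Bool)
    (t : List Bool) (ht : P.Reach s t.length (pairs (s :: t))) :
    pathSum h s t ≤ pathSum h' s t := by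
  induction t generalizing s with
  | nil => exact le_rfl
  | cons b r ih =>
    obtain ⟨hs, hn⟩ := step_of_reach ht
    exact add_le_add (hh _ _ _ _ hs) (ih b (hn ▸ hs.next))

theorem pathSum_telescope (F : ℕ → ℕ → ℝ) (s : Bool) (t : List Bool) :
    pathSum (fun s L y b => F (L - 1) (nxt s y b) - F L y) s t =
      F 0 0 - F t.length (pairs (s :: t)) := by
  induction t generalizing s with
  | nil => simp [pathSum, pairs]
  | cons b r ih =>
    have hn : nxt s (pairs (s :: b :: r)) b = pairs (b :: r) := by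
      cases s <;> cases b <;> simp [nxt, pairs]
    simp only [pathSum, ih, List.length_cons, Nat.add_sub_cancel, hn]
    ring

theorem pathSum_add' (g h : Bool → ℕ → ℕ → Bool → ℝ) (s : Bool) (t : List Bool) :
    pathSum (fun s L y b => g s L y b + h s L y b) s t = pathSum g s t + pathSum h s t := by
  induction t generalizing s with
  | nil => simp [pathSum]
  | cons b r ih => simp only [pathSum, ih]; ring

theorem pathSum_mul' (c : ℝ) (g : Bool → ℕ → ℕ → Bool → ℝ) (s : Bool) (t : List Bool) :
    pathSum (fun s L y b => c * g s L y b) s t = c * pathSum g s t := by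
  induction t generalizing s with
  | nil => simp [pathSum]
  | cons b r ih => simp only [pathSum, ih]; ring

theorem pathSum_nonneg {g : Bool → ℕ → ℕ → Bool → ℝ} (h : ∀ s L y b, 0 ≤ g s L y b) (s : Bool)
    (t : List Bool) : 0 ≤ pathSum g s t := by
  induction t generalizing s with
  | nil => exact le_rfl
  | cons b r ih => exact add_nonneg (h _ _ _ _) (ih b)

variable (G : P.Good κ K)
include G

theorem g_end : P.g 0 0 = 0 := by
  refine (dead ?_).1
  have := G.hA2
  have := G.hl
  have h1 : 2 * P.k + 4 ≤ P.ℓ := by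
    have : (((2 * P.k + 4 : ℕ)) : ℝ) ≤ P.ℓ := by push_cast; linarith [G.big]
    exact_mod_cast this
  simp only [u]
  omega

theorem root_reach : P.Reach true P.ℓ P.A :=
  ⟨le_rfl, le_rfl, by simp, by simpa using G.hA2⟩

omit G in
theorem g_root : P.g P.ℓ P.A = 0 := by simp [g, gg, cm]

omit G in
theorem T_le (L : ℕ) {y : ℕ} (hy : y ≤ P.A) : P.T L y ≤ P.N := by
  have := cum_le P.ℓ (P.u y) (P.v y + 1) (L + 2)
  rw [show P.u y + (P.v y + 1) = P.k + P.J + 1 + P.A by simp only [u, v]; omega] at this
  simp only [T, N]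
  exact_mod_cast this

variable {t : List Bool} (ht : t.length = P.ℓ) (hA : pairs (true :: t) = P.A)
include ht hA

theorem sum_g_le :
    pathSum (fun s L y b => P.g L y + P.g (L - 1) (nxt s y b)) true t ≤ 6 / κ * P.N := by
  have hR : P.Reach true t.length (pairs (true :: t)) := by rw [ht, hA]; exact root_reach G
  have hκ := G.κ0
  have h1 : κ / 3 * pathSum (fun _ L y _ => P.g L y) true t ≤ P.N := by
    rw [← pathSum_mul']
    refine (pathSum_le (h' := fun s L y b =>
      (fun L y => -P.T L y) (L - 1) (nxt s y b) - (fun L y => -P.T L y) L y)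
      (fun s L y b h => ?_) true t hR).trans ?_
    · have := potential_step G h
      simp only [Nat.add_sub_cancel]
      linarith
    · have htel := pathSum_telescope (fun L y => -P.T L y) true t
      beta_reduce at htel ⊢
      rw [htel, ht, hA]
      have h0 : 0 ≤ P.T 0 0 := Nat.cast_nonneg _
      linarith [P.T_le P.ℓ (le_refl P.A)]
  have h2 : pathSum (fun s L y b => P.g (L - 1) (nxt s y b)) true t =
      pathSum (fun _ L y _ => P.g L y) true t := by
    have := pathSum_telescope P.g true t
    rw [ht, hA, g_end G, g_root] at this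
    have e : pathSum (fun s L y b => (P.g (L - 1) (nxt s y b) - P.g L y) + P.g L y) true t =
        pathSum (fun _ L y _ => P.g L y) true t := by rw [pathSum_add', this]; ring
    simpa using e
  rw [pathSum_add', h2, div_mul_eq_mul_div, le_div_iff₀ hκ]
  linarith

theorem sum_S_le : pathSum (fun _ L y _ => P.S L y) true t ≤ 18 / κ ^ 2 * P.N := by
  have hR : P.Reach true t.length (pairs (true :: t)) := by rw [ht, hA]; exact root_reach G
  have hκ := G.κ0
  have h := pathSum_le (h := fun _ L y _ => κ / 3 * P.S L y)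
    (h' := fun s L y b => P.g L y + P.g (L - 1) (nxt s y b)) (fun s L y b h => by
      have := S_le G h
      simp only [Nat.add_sub_cancel]
      linarith) true t hR
  rw [pathSum_mul'] at h
  have := h.trans (sum_g_le G ht hA)
  rw [div_mul_eq_mul_div, le_div_iff₀ (by positivity)]
  have h2 := mul_le_mul_of_nonneg_left this (show 0 ≤ 3 * κ by positivity)
  rw [show 3 * κ * (6 / κ * P.N) = 18 * P.N by field_simp; ring] at h2
  linarith

theorem sum_energy_le :
    pathSum (fun _ L y _ => P.Z L y ^ 2 * P.S L y) true t ≤ 3240 / κ ^ 3 * (K : ℝ) ^ 3 * P.N := by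
  have hR : P.Reach true t.length (pairs (true :: t)) := by rw [ht, hA]; exact root_reach G
  have hκ := G.κ0
  have hK := G.K_pos
  have h := pathSum_le (h := fun _ L y _ => κ / (36 * (K : ℝ) ^ 2) * (P.Z L y ^ 2 * P.S L y))
    (h' := fun s L y b =>
      ((fun L y => P.Z L y * P.g L y) (L - 1) (nxt s y b) - (fun L y => P.Z L y * P.g L y) L y) +
      15 / κ * K * (P.g L y + P.g (L - 1) (nxt s y b))) (fun s L y b h => by
      simpa only [Nat.add_sub_cancel] using energy_step G h) true t hR
  have htel := pathSum_telescope (fun L y => P.Z L y * P.g L y) true t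
  rw [pathSum_mul', pathSum_add', pathSum_mul'] at h
  beta_reduce at h htel
  rw [htel, ht, hA, g_end G, g_root] at h
  have h' := h.trans (add_le_add le_rfl (mul_le_mul_of_nonneg_left (sum_g_le G ht hA)
    (by positivity : (0 : ℝ) ≤ 15 / κ * K)))
  simp only [mul_zero, sub_zero, zero_add] at h'
  rw [div_mul_eq_mul_div, div_le_iff₀ (by positivity)] at h'
  rw [show 3240 / κ ^ 3 * (K : ℝ) ^ 3 * P.N = 15 / κ * K * (6 / κ * P.N) * (36 * K ^ 2) / κ by ring,
    le_div_iff₀ hκ]
  linarith

/-- The variation of the weight along a trace. -/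
theorem sum_var_le :
    pathSum (fun s L y b => |P.g (L - 1) (nxt s y b) - P.g L y|) true t ≤
      3300 / κ ^ 5 * P.N / Real.sqrt K := by
  have hR : P.Reach true t.length (pairs (true :: t)) := by rw [ht, hA]; exact root_reach G
  have hκ := G.κ0
  have hK := G.K_pos
  have hκ1 := G.κ1
  set s₀ := Real.sqrt K with hs₀
  have hs : 0 < s₀ := Real.sqrt_pos.2 hK
  have hss : s₀ * s₀ = K := Real.mul_self_sqrt hK.le
  have hs1 : 1 ≤ s₀ := Real.one_le_sqrt.2 (by nlinarith [G.big])
  have hN : 0 ≤ P.N := Nat.cast_nonneg _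
  have h := pathSum_le (h := fun s L y b => |P.g (L - 1) (nxt s y b) - P.g L y|)
    (h' := fun _ L y _ => 1 / (κ ^ 2 * (K : ℝ) ^ 3 * s₀) * (P.Z L y ^ 2 * P.S L y) +
      (2 / (κ ^ 2 * s₀)) * P.S L y) (fun s L y b h => by
      obtain ⟨c, e, hc0, hc1, he0, he, hd, -⟩ := g_step G h
      simp only [Nat.add_sub_cancel]
      rw [hd]
      have hd' := abs_d_le G h.cur.near
      have hS := P.S_nonneg (L + 1) y
      have hgS : P.g (L + 1) y ≤ P.S (L + 1) y := le_add_of_nonneg_right (gv_nonneg _ _)
      have h1 : |P.d (L + 1) y * (1 - c) + e| ≤ |P.d (L + 1) y| + e := by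
        refine (abs_add_le _ _).trans ?_
        rw [abs_mul, abs_of_nonneg he0]
        have : |1 - c| ≤ 1 := abs_le.2 ⟨by linarith, by linarith⟩
        nlinarith [abs_nonneg (P.d (L + 1) y)]
      refine h1.trans ?_
      have hamgm : |P.Z (L + 1) y| * P.S (L + 1) y * (K * s₀) ≤
          P.Z (L + 1) y ^ 2 * P.S (L + 1) y + (K * s₀) ^ 2 * P.S (L + 1) y := by
        nlinarith [mul_nonneg (sq_nonneg (|P.Z (L + 1) y| - K * s₀)) hS,
          sq_abs (P.Z (L + 1) y), mul_nonneg (abs_nonneg (P.Z (L + 1) y)) hS,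
          mul_nonneg (sq_nonneg (P.Z (L + 1) y)) hS, mul_nonneg (sq_nonneg ((K : ℝ) * s₀)) hS]
      have hd2 : |P.d (L + 1) y| ≤ 1 / (κ ^ 2 * (K : ℝ) ^ 3 * s₀) *
          (P.Z (L + 1) y ^ 2 * P.S (L + 1) y) + 1 / (κ ^ 2 * s₀) * P.S (L + 1) y := by
        rw [show 1 / (κ ^ 2 * (K : ℝ) ^ 3 * s₀) * (P.Z (L + 1) y ^ 2 * P.S (L + 1) y) +
            1 / (κ ^ 2 * s₀) * P.S (L + 1) y = (P.Z (L + 1) y ^ 2 * P.S (L + 1) y +
              (K : ℝ) ^ 3 * P.S (L + 1) y) / (κ ^ 2 * K ^ 3 * s₀) by field_simp,
          le_div_iff₀ (by positivity)]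
        calc |P.d (L + 1) y| * (κ ^ 2 * (K : ℝ) ^ 3 * s₀)
            = κ ^ 2 * (K : ℝ) ^ 2 * |P.d (L + 1) y| * (K * s₀) := by ring
          _ ≤ |P.Z (L + 1) y| * P.S (L + 1) y * (K * s₀) :=
              mul_le_mul_of_nonneg_right hd' (by positivity)
          _ ≤ _ := hamgm
          _ = _ := by rw [mul_pow, sq s₀, hss]; ring
      have he2 : e ≤ 1 / (κ ^ 2 * s₀) * P.S (L + 1) y := by
        rw [one_div_mul_eq_div, le_div_iff₀ (by positivity)]
        calc e * (κ ^ 2 * s₀) ≤ e * (κ * K) := by
              refine mul_le_mul_of_nonneg_left ?_ he0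
              exact mul_le_mul (by nlinarith) (by nlinarith) hs.le (by positivity)
          _ ≤ _ := by linarith
      rw [show 2 / (κ ^ 2 * s₀) = 1 / (κ ^ 2 * s₀) + 1 / (κ ^ 2 * s₀) by ring, add_mul]
      linarith) true t hR
  rw [pathSum_add', pathSum_mul', pathSum_mul'] at h
  refine h.trans ?_
  calc _ ≤ 1 / (κ ^ 2 * (K : ℝ) ^ 3 * s₀) * (3240 / κ ^ 3 * (K : ℝ) ^ 3 * P.N) +
        2 / (κ ^ 2 * s₀) * (18 / κ ^ 2 * P.N) := by
        gcongr
        exacts [sum_energy_le G ht hA, sum_S_le G ht hA]
    _ = (3240 + 36 * κ) / κ ^ 5 * P.N / s₀ := by field_simp; ring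
    _ ≤ _ := by gcongr; linarith

omit ht hA

/-- A weighted sum is at most the variation times the sum of the weights. -/
theorem sum_mul_le {W : Bool → ℕ → ℕ → Bool → ℝ} (hW : ∀ s L y b, 0 ≤ W s L y b) (s : Bool)
    (t : List Bool) (hR : P.Reach s t.length (pairs (s :: t))) :
    pathSum (fun s L y b => W s L y b * (P.S L y + P.S (L - 1) (nxt s y b))) s t ≤
      12 / κ * pathSum (fun s L y b => |P.g (L - 1) (nxt s y b) - P.g L y|) s t * pathSum W s t := by
  have hκ := G.κ0
  set V := fun s L y b => |P.g (L - 1) (nxt s y b) - P.g L y| with hV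
  have hg : ∀ s t, P.g (List.length t) (pairs (s :: t)) ≤ pathSum V s t := by
    intro s t
    induction t generalizing s with
    | nil => simp [pathSum, pairs, g_end G]
    | cons b r ih =>
      have hn : nxt s (pairs (s :: b :: r)) b = pairs (b :: r) := by
        cases s <;> cases b <;> simp [nxt, pairs]
      simp only [pathSum, hV, List.length_cons, Nat.add_sub_cancel, hn]
      linarith [ih b, neg_abs_le (P.g r.length (pairs (b :: r)) -
        P.g (r.length + 1) (pairs (s :: b :: r)))]
  have hS : ∀ s t, P.Reach s (List.length t) (pairs (s :: t)) →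
      P.S (List.length t) (pairs (s :: t)) ≤ 6 / κ * pathSum V s t := by
    intro s t h
    rcases t with _ | ⟨b, r⟩
    · have hd := (dead (P := P) (L := 0) (y := 0) (by
        have h1 : 2 * P.k + 4 ≤ P.ℓ := by
          have : (((2 * P.k + 4 : ℕ)) : ℝ) ≤ P.ℓ := by push_cast; linarith [G.hl, G.big]
          exact_mod_cast this
        have := G.hA2
        simp only [u]; omega)).2.2.1
      simp [pathSum, pairs, hd]
    · obtain ⟨hs, hn⟩ := step_of_reach h
      have h1 := S_le G hs
      have h2 := hg s (b :: r)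
      have h3 := hg b r
      have h4 : pathSum V b r ≤ pathSum V s (b :: r) := le_add_of_nonneg_left (abs_nonneg _)
      rw [div_mul_eq_mul_div, le_div_iff₀ hκ]
      rw [hn] at h1
      simp only [List.length_cons] at h1 h2 ⊢
      nlinarith
  induction t generalizing s with
  | nil => simp [pathSum]
  | cons b r ih =>
    obtain ⟨hs, hn⟩ := step_of_reach hR
    have hR' : P.Reach b r.length (pairs (b :: r)) := hn ▸ hs.next
    have h1 := hS s (b :: r) hR
    have h2 := hS b r hR'
    have hv : 0 ≤ V s (r.length + 1) (pairs (s :: b :: r)) b := abs_nonneg _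
    have hW0 := pathSum_nonneg hW b r
    have hw := hW s (r.length + 1) (pairs (s :: b :: r)) b
    have hc : 0 ≤ 6 / κ := by positivity
    simp only [pathSum, List.length_cons, Nat.add_sub_cancel, hn] at h1 ⊢
    refine (add_le_add ((mul_add _ _ _).trans_le (add_le_add (mul_le_mul_of_nonneg_left h1 hw)
      (mul_le_mul_of_nonneg_left h2 hw))) (ih b hR')).trans ?_
    linear_combination (6 / κ) * mul_nonneg hw hv + (12 / κ) * mul_nonneg hv hW0

include ht hA

/-- The readings through the chosen slot are a proper fraction of all readings. -/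
theorem zeros_le :
    stateSum (fun s L y => if s then 0 else P.g L y) true t ≤ (1 - κ / 4) * P.N := by
  have hκ := G.κ0
  have hκ1 := G.κ1
  set V : Bool → ℕ → ℕ → ℕ := fun s L y =>
    if s then cum P.ℓ (P.u y - 1) (P.v y + 2) (L + 2) else cum P.ℓ (P.u y) (P.v y + 1) (L + 2)
  have hρ : (0 : ℝ) ≤ 1 - κ / 4 := by linarith
  suffices ∀ s (r : List Bool), P.Reach s r.length (pairs (s :: r)) →
      stateSum (fun s L y => if s then 0 else P.g L y) s r ≤
        (1 - κ / 4) * (V s r.length (pairs (s :: r)) : ℕ) by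
    refine (this true t (by rw [ht, hA]; exact root_reach G)).trans
      (mul_le_mul_of_nonneg_left ?_ hρ)
    have h := cum_le P.ℓ (P.u P.A - 1) (P.v P.A + 2) (P.ℓ + 2)
    have hu : 1 ≤ P.u P.A := by
      have : (1 : ℝ) ≤ P.k := by linarith [G.hk, G.big]
      have : 1 ≤ P.k := by exact_mod_cast this
      simp only [u]; omega
    rw [show P.u P.A - 1 + (P.v P.A + 2) = P.k + P.J + 1 + P.A by
      simp only [u, v] at hu ⊢; omega] at h
    rw [ht, hA]
    simp only [V, if_true, N]
    exact_mod_cast h
  intro s r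
  induction r generalizing s with
  | nil =>
    intro _
    simp only [stateSum, pairs, g_end G, ite_self]
    positivity
  | cons b r ih =>
    intro hR
    obtain ⟨hs, hn⟩ := step_of_reach hR
    have hrec := ih b (hn ▸ hs.next)
    rw [← hn] at hrec
    simp only [stateSum, List.length_cons]
    refine (add_le_add le_rfl (hn ▸ hrec)).trans ?_
    generalize pairs (s :: b :: r) = y at hs hn hR ⊢
    rw [← hn]
    generalize r.length = L at hs ⊢
    have hu1 : 1 ≤ P.u y := by
      have : (1 : ℝ) ≤ P.k := by linarith [G.hk, G.big]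
      have : 1 ≤ P.k := by exact_mod_cast this
      simp only [u]; omega
    cases s with
    | true =>
      have hy' : nxt true y b = y := by simp [nxt]
      rw [hy', if_pos rfl, zero_add]
      refine mul_le_mul_of_nonneg_left (Nat.cast_le.2 ?_) hρ
      cases b
      · have h := cum_jump (ℓ := P.ℓ) (M := L + 2) (by have := hs.cur.hL; omega) (P.u y - 1)
          (P.v y + 1)
        rw [Nat.sub_add_cancel hu1] at h
        simp only [V, if_true, Bool.false_eq_true, if_false, h]
        exact Nat.le_add_right _ _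
      · simp only [V, if_true]
        rw [cum_succ P.ℓ (P.u y - 1) (P.v y + 2) (L + 2)]
        exact Nat.le_add_right _ _
    | false =>
      have hN := hs.cur.near
      have hv := v_sub_ge G hN
      have hv3 := v_le G hN
      push_cast at hv
      set γ : ℕ := (P.v y + 1).choose (L + 2) * cm (P.u y) (P.ℓ - (L + 1)) with hγ
      have hgγ : P.g (L + 1) y * ((P.v y : ℝ) + 1) = γ * ((L : ℝ) + 2) := by
        have h' : ((P.v y : ℝ) + 1) * (P.v y).choose (L + 1) =
            (P.v y + 1).choose (L + 2) * ((L : ℝ) + 2) := by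
          exact_mod_cast Nat.add_one_mul_choose_eq (P.v y) (L + 1)
        simp only [hγ, g, gg]
        push_cast
        linear_combination (cm (P.u y) (P.ℓ - (L + 1)) : ℝ) * h'
      have hle : P.g (L + 1) y ≤ (1 - κ / 4) * γ := by
        refine le_of_mul_le_mul_right ?_ (show (0 : ℝ) < P.v y + 1 by positivity)
        rw [hgγ, mul_comm (1 - κ / 4) (γ : ℝ), mul_assoc]
        refine mul_le_mul_of_nonneg_left ?_ (Nat.cast_nonneg _)
        nlinarith
      have hV : V false (L + 1) y = V b L (nxt false y b) + γ := by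
        have hc := cum_succ P.ℓ (P.u y) (P.v y + 1) (L + 2)
        rw [show P.ℓ + 1 - (L + 2) = P.ℓ - (L + 1) by omega] at hc
        cases b
        · simpa [V, nxt] using hc
        · have hy := hs.pos rfl rfl
          have := hs.cur.hy
          have e1 : P.u (y - 1) - 1 = P.u y := by simp only [u]; omega
          have e2 : P.v (y - 1) + 2 = P.v y + 1 := by simp only [v]; omega
          simpa [V, nxt, e1, e2] using hc
      rw [hV]
      push_cast
      linarith

end Vale.Agent.P321.Cls
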