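import Vale.Agent.P321.Separation

/-!
# P321: from the Hellinger distance to a lower bound on the number of traces
-/

namespace Vale.Agent.P321

open Finset

/-- The words of length at most `n`. -/
def shortWords (n : ℕ) : Finset (List Bool) := (range (n + 1)).biUnion words

theorem mem_shortWords {n : ℕ} {t : List Bool} : t ∈ shortWords n ↔ t.length ≤ n := by
  simp [shortWords, mem_words]

theorem sum_shortWords (n : ℕ) (F : List Bool → ℝ) :
    ∑ t ∈ shortWords n, F t = ∑ L ∈ range (n + 1), wordSum L F := by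
  simp only [wordSum_eq_sum]
  refine Finset.sum_biUnion fun a _ b _ hab => ?_
  rw [Function.onFun, Finset.disjoint_left]
  exact fun t ha hb => hab ((mem_words.1 ha).symm.trans (mem_words.1 hb))

theorem sum_prob (p : ℝ) {n : ℕ} {w : List Bool} (hw : w.length = n) :
    ∑ t ∈ shortWords n, prob p w t = 1 := by
  have h := expect_eq_prob p w (fun _ => 1)
  rw [expect_one, hw] at h
  rw [sum_shortWords]
  simpa using h.symm

/-- A tuple of subsets has the law of a tuple of traces. -/
theorem samples_eq (p : ℝ) {n : ℕ} (x : Fin n → Bool) (m : ℕ)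
    (φ : (Fin m → List Bool) → ℝ) :
    ∑ S : Fin m → Finset (Fin n), (∏ j, p ^ (S j).card * (1 - p) ^ (n - (S j).card)) *
        φ (fun j => ((List.finRange n).filter (fun i => i ∈ S j)).map x) =
      ∑ s ∈ Fintype.piFinset fun _ : Fin m => shortWords n,
        (∏ j, prob p (List.ofFn x) (s j)) * φ s := by
  classical
  set tr : Finset (Fin n) → List Bool := fun S =>
    ((List.finRange n).filter (fun i => i ∈ S)).map x with htr
  have hmem : ∀ S, tr S ∈ shortWords n := fun S => by
    rw [mem_shortWords, htr, List.length_map]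
    exact (List.length_filter_le _ _).trans_eq List.length_finRange
  have hP : ∀ t ∈ shortWords n, prob p (List.ofFn x) t =
      ∑ S ∈ univ.filter (fun S => tr S = t), p ^ #S * (1 - p) ^ (n - #S) := by
    intro t ht
    have h := sum_subsets p x (fun u => if u = t then 1 else 0)
    simp only [mul_ite, mul_one, mul_zero, ← Finset.sum_filter] at h
    rw [h, expect_eq_prob, List.length_ofFn, ← sum_shortWords]
    simp [ht]
  rw [← Finset.sum_fiberwise_of_maps_to (s := univ) (t := Fintype.piFinset fun _ => shortWords n)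
    (g := fun (S : Fin m → Finset (Fin n)) j => tr (S j))
    (fun S _ => Fintype.mem_piFinset.2 fun j => hmem _)]
  refine Finset.sum_congr rfl fun s hs => ?_
  rw [show (univ.filter fun S : Fin m → Finset (Fin n) => (fun j => tr (S j)) = s) =
      Fintype.piFinset fun j => univ.filter (fun S => tr S = s j) by
    ext S; simp [Fintype.mem_piFinset, funext_iff]]
  rw [Finset.prod_congr rfl fun j _ => hP _ (Fintype.mem_piFinset.1 hs j), Finset.prod_univ_sum,
    sum_mul]
  refine Finset.sum_congr rfl fun S hS => ?_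
  congr 1
  exact congrArg φ (funext fun j => (mem_filter.1 (Fintype.mem_piFinset.1 hS j)).2)

/-- Two different words close in Hellinger distance need many traces. -/
theorem traces_ge {p : ℝ} (hp0 : 0 ≤ p) (hp1 : p ≤ 1) {n : ℕ} {x y : Fin n → Bool} (hxy : x ≠ y)
    (m : ℕ) (est : (Fin m → List Bool) → (Fin n → Bool) → ℝ) (h0 : ∀ T x, 0 ≤ est T x)
    (h1 : ∀ T, ∑ x, est T x = 1)
    (hs : ∀ x : Fin n → Bool, 2 / 3 ≤ ∑ S : Fin m → Finset (Fin n),
      (∏ j, p ^ (S j).card * (1 - p) ^ (n - (S j).card)) *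
        est (fun j => ((List.finRange n).filter (fun i => i ∈ S j)).map x) x) :
    1 ≤ 9 * (m : ℝ) * hellSum p n (List.ofFn x) (List.ofFn y) := by
  have hl : ∀ z : Fin n → Bool, (List.ofFn z).length = n := fun z => List.length_ofFn
  have hb := sample_bound (shortWords n) (prob p (List.ofFn x)) (prob p (List.ofFn y))
    (prob_nonneg hp0 hp1 _) (prob_nonneg hp0 hp1 _) (sum_prob p (hl x)) (sum_prob p (hl y)) m
    (fun T => est T x) (fun T => h0 T x) (fun T =>
      (Finset.single_le_sum (fun z _ => h0 T z) (mem_univ x)).trans_eq (h1 T))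
  rw [sum_shortWords] at hb
  change _ ≤ (m : ℝ) * hellSum p n (List.ofFn x) (List.ofFn y) at hb
  have hx := (hs x).trans_eq (samples_eq p x m fun T => est T x)
  have hy := (hs y).trans_eq (samples_eq p y m fun T => est T y)
  have hsum : ∑ s ∈ Fintype.piFinset (fun _ : Fin m => shortWords n),
      (∏ j, prob p (List.ofFn y) (s j)) * est s x ≤ 1 / 3 := by
    have hle : ∀ T, est T x + est T y ≤ 1 := fun T => by
      rw [← h1 T, ← Finset.sum_pair hxy]
      exact Finset.sum_le_sum_of_subset_of_nonneg (subset_univ _) fun z _ _ => h0 T z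
    have htot : ∑ s ∈ Fintype.piFinset (fun _ : Fin m => shortWords n),
        ∏ j, prob p (List.ofFn y) (s j) = 1 := by
      rw [Finset.sum_prod_piFinset]
      simp [sum_prob p (hl y)]
    have : ∑ s ∈ Fintype.piFinset (fun _ : Fin m => shortWords n),
        ((∏ j, prob p (List.ofFn y) (s j)) * est s x +
          (∏ j, prob p (List.ofFn y) (s j)) * est s y) ≤ 1 := by
      refine le_trans (Finset.sum_le_sum fun s _ => ?_) htot.le
      rw [← mul_add]
      exact mul_le_of_le_one_right (prod_nonneg fun j _ => prob_nonneg hp0 hp1 _ _) (hle s)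
    rw [Finset.sum_add_distrib] at this
    linarith
  nlinarith

/-- The lower bound `n ^ (3/2)`. -/
theorem traces_lower {p : ℝ} (hp0 : 0 < p) (hp1 : p < 1) :
    ∃ c : ℝ, 0 < c ∧ ∃ n₀ : ℕ, ∀ n, n₀ ≤ n → ∀ (m : ℕ)
      (est : (Fin m → List Bool) → (Fin n → Bool) → ℝ),
      (∀ T x, 0 ≤ est T x) → (∀ T, ∑ x, est T x = 1) →
      (∀ x : Fin n → Bool, 2 / 3 ≤ ∑ S : Fin m → Finset (Fin n),
        (∏ j, p ^ (S j).card * (1 - p) ^ (n - (S j).card)) *
          est (fun j => ((List.finRange n).filter (fun i => i ∈ S j)).map x) x) →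
      c * ((n : ℝ) * Real.sqrt n) ≤ m := by
  obtain ⟨C, hC, K₀, hsep⟩ := separation hp0 hp1
  refine ⟨1 / (36 * C), by positivity, 2 * K₀ + 1, fun n hn m est h0 h1 hs => ?_⟩
  set K := (n + 1) / 2 with hKdef
  obtain ⟨w, w', hw, hw', hne, hH⟩ := hsep K (by omega)
  obtain ⟨u, u', hu, hu', hne', hH'⟩ : ∃ u u' : List Bool, u.length = n ∧ u'.length = n ∧ u ≠ u' ∧
      hellSum p n u u' ≤ C / ((K : ℝ) * Real.sqrt K) := by
    rcases Nat.even_or_odd' n with ⟨j, rfl | rfl⟩
    · refine ⟨false :: w, false :: w', by simp; omega, by simp; omega, by simpa using hne, ?_⟩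
      refine le_trans ?_ hH
      have := hellSum_cons hp0.le hp1.le false hw hw'
      rwa [show 2 * K - 1 + 1 = 2 * j by omega] at this
    · refine ⟨w, w', by omega, by omega, hne, ?_⟩
      rwa [show 2 * j + 1 = 2 * K - 1 by omega]
  have hof : ∀ v : List Bool, v.length = n → ∃ x : Fin n → Bool, List.ofFn x = v := by
    rintro v rfl
    exact ⟨v.get, List.ofFn_get v⟩
  obtain ⟨x, rfl⟩ := hof u hu
  obtain ⟨y, rfl⟩ := hof u' hu'
  have h := traces_ge hp0.le hp1.le (fun e => hne' (congrArg List.ofFn e)) m est h0 h1 hs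
  have hK : 0 < (K : ℝ) := by exact_mod_cast (show 0 < K by omega)
  have hKn : (n : ℝ) ≤ 2 * K := by exact_mod_cast (show n ≤ 2 * K by omega)
  have hs0 : 0 < Real.sqrt K := Real.sqrt_pos.2 hK
  have hsq : Real.sqrt n ≤ 2 * Real.sqrt K := by
    rw [show (2 : ℝ) = Real.sqrt 4 by rw [show (4 : ℝ) = 2 ^ 2 by norm_num,
      Real.sqrt_sq zero_le_two], ← Real.sqrt_mul (by norm_num)]
    exact Real.sqrt_le_sqrt (by linarith)
  have h9 : (K : ℝ) * Real.sqrt K ≤ 9 * m * C := by
    have := h.trans (mul_le_mul_of_nonneg_left hH' (by positivity))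
    rwa [mul_div_assoc', le_div_iff₀ (by positivity), one_mul] at this
  rw [one_div_mul_eq_div, div_le_iff₀ (by positivity)]
  calc (n : ℝ) * Real.sqrt n ≤ 2 * K * (2 * Real.sqrt K) :=
        mul_le_mul hKn hsq (Real.sqrt_nonneg _) (by positivity)
    _ = 4 * (K * Real.sqrt K) := by ring
    _ ≤ 4 * (9 * m * C) := by linarith
    _ = _ := by ring

end Vale.Agent.P321
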