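import Vale.Agent.P321.Bound
import Vale.Agent.P321.Hellinger

/-!
# P321: two words that need `K ^ (3/2)` traces

The words are `(01)^K` without the zero at position `2 k`, respectively `2 k + 2`.
-/

namespace Vale.Agent.P321

open Finset

/-- `(01)^(k+1+J)` without the zero of block `k`. -/
def cut (k J : ℕ) : List Bool := alt k ++ true :: alt J

theorem cut_length (k J : ℕ) : (cut k J).length = 2 * (k + J) + 1 := by
  simp [cut, alt_length]; ring

theorem pairs_le_cons (b : Bool) (t : List Bool) : pairs t ≤ pairs (b :: t) := by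
  cases t <;> simp [pairs]

theorem stateSum_sub (F G : Bool → ℕ → ℕ → ℝ) (s : Bool) (t : List Bool) :
    stateSum (fun s L y => F s L y - G s L y) s t = stateSum F s t - stateSum G s t := by
  induction t generalizing s with
  | nil => simp [stateSum]
  | cons b r ih => simp only [stateSum, ih]; ring

theorem emb_cut (P : Cls) {t : List Bool} (ht : t.length = P.ℓ) (hA : pairs (true :: t) = P.A) :
    (emb (cut P.k P.J) t : ℝ) =
      P.N - stateSum (fun s L y => if s then 0 else P.g L y) true t := by
  have h := splitSum_alt_eq P.k P.J P.ℓ P.A [] t true rfl (by simpa using ht)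
    (by simpa [pairs] using hA) (fun s L y => if s then 0 else P.g L y)
    (fun L y hL => by
      simp only [Bool.false_eq_true, if_false, Cls.g, Cls.u, Cls.v, gg]
      rw [show P.ℓ - L = P.ℓ - L - 1 + 1 by omega]
      simp [cm])
    (fun L y => by simp)
  have e : alt (P.k + P.J + 1) = alt P.k ++ false :: true :: alt P.J := by
    rw [show P.k + P.J + 1 = P.k + (P.J + 1) by ring, alt_add, alt]
  have h2 := emb_insert (alt P.k) (true :: alt P.J) t
  rw [← e, (emb_alt _).1] at h2
  simp only [if_true, add_zero] at h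
  rw [← h, Cls.N, ← ht, ← hA, pairs_cons_true, h2, cut]
  push_cast
  ring

theorem emb_cut_le {k J : ℕ} (t : List Bool) : emb (cut k J) t ≤ emb (alt (k + J + 1)) t := by
  rw [show k + J + 1 = k + (J + 1) by ring, alt_add, alt, emb_insert, cut]
  exact Nat.le_add_right _ _

theorem expect_exp_pairs {p : ℝ} (h0 : 0 ≤ p) (h1 : p ≤ 1) (K : ℕ) :
    expect p (alt K) (fun t => Real.exp (-(pairs t : ℝ))) ≤ Real.exp (-(p ^ 2 * K / 2)) := by
  induction K with
  | zero => simp [alt, expect, pairs]
  | succ K ih =>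
    have he : Real.exp (-1) ≤ 1 / 2 := by
      rw [Real.exp_neg, one_div]
      gcongr
      linarith [Real.add_one_le_exp 1]
    set M := expect p (alt K) (fun t => Real.exp (-(pairs t : ℝ))) with hM
    have hM0 : 0 ≤ M := by
      refine le_trans (le_of_eq ?_) (expect_mono h0 h1 _ fun t => (Real.exp_pos _).le)
      rw [show (fun _ : List Bool => (0 : ℝ)) = fun t => 0 * (fun _ => (1 : ℝ)) t by simp,
        expect_mul, zero_mul]
    have hT : expect p (alt K) (fun t => Real.exp (-(pairs (true :: t) : ℝ))) = M := by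
      simp only [pairs_cons_true, ← hM]
    have hF : expect p (alt K) (fun t => Real.exp (-(pairs (false :: t) : ℝ))) ≤ M :=
      expect_mono h0 h1 _ fun t => Real.exp_le_exp.2
        (neg_le_neg (Nat.cast_le.2 (pairs_le_cons _ _)))
    have hB : expect p (alt K) (fun t => Real.exp (-(pairs (false :: true :: t) : ℝ))) =
        Real.exp (-1) * M := by
      rw [hM, ← expect_mul]
      refine expect_congr _ _ fun t => ?_
      rw [← Real.exp_add, pairs, if_pos ⟨rfl, rfl⟩, pairs_cons_true]
      push_cast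
      ring_nf
    calc expect p (alt (K + 1)) (fun t => Real.exp (-(pairs t : ℝ)))
        ≤ (1 - p) * ((1 - p) * M + p * M) + p * ((1 - p) * M + p * (1 / 2 * M)) := by
          rw [alt, expect, expect, expect, hT, hB, ← hM]
          gcongr
      _ = (1 - p ^ 2 / 2) * M := by ring
      _ ≤ Real.exp (-(p ^ 2 / 2)) * Real.exp (-(p ^ 2 * K / 2)) :=
          mul_le_mul (by linarith [Real.add_one_le_exp (-(p ^ 2 / 2))]) ih hM0 (Real.exp_pos _).le
      _ = _ := by rw [← Real.exp_add]; push_cast; ring_nf

theorem expect_exp_slack {p : ℝ} (h0 : 0 ≤ p) (h1 : p ≤ 1) (K : ℕ) :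
    expect p (alt K) (fun t => Real.exp ((t.length : ℝ) - K - pairs t)) ≤
      Real.exp (-((1 - p) ^ 2 * K / 2)) := by
  induction K with
  | zero => simp [alt, expect, pairs]
  | succ K ih =>
    set F := fun t : List Bool => Real.exp ((t.length : ℝ) - K - pairs t) with hF
    set M := expect p (alt K) F with hM
    have he : Real.exp (-1) ≤ 1 / 2 := by
      rw [Real.exp_neg, one_div]
      gcongr
      linarith [Real.add_one_le_exp 1]
    have hM0 : 0 ≤ M := by
      refine le_trans (le_of_eq ?_) (expect_mono h0 h1 _ fun t => (Real.exp_pos _).le)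
      rw [show (fun _ : List Bool => (0 : ℝ)) = fun t => 0 * (fun _ => (1 : ℝ)) t by simp,
        expect_mul, zero_mul]
    set G := fun t : List Bool => Real.exp ((t.length : ℝ) - (K + 1 : ℕ) - pairs t) with hG
    have h00 : expect p (alt K) G = Real.exp (-1) * M := by
      rw [hM, ← expect_mul]
      refine expect_congr _ _ fun t => ?_
      simp only [hG, hF, ← Real.exp_add]
      push_cast
      ring_nf
    have hT : expect p (alt K) (fun t => G (true :: t)) = M := by
      refine expect_congr _ _ fun t => ?_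
      simp only [hG, hF, pairs_cons_true, List.length_cons]
      push_cast
      ring_nf
    have h10 : expect p (alt K) (fun t => G (false :: t)) ≤ M :=
      expect_mono h0 h1 _ fun t => Real.exp_le_exp.2 (by
        have : (pairs t : ℝ) ≤ pairs (false :: t) := Nat.cast_le.2 (pairs_le_cons _ _)
        simp only [List.length_cons]
        push_cast
        linarith)
    have hB : expect p (alt K) (fun t => G (false :: true :: t)) = M := by
      refine expect_congr _ _ fun t => ?_
      simp only [hG, hF, pairs, and_self, if_true, pairs_cons_true, List.length_cons]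
      push_cast
      ring_nf
    calc expect p (alt (K + 1)) G
        ≤ (1 - p) * ((1 - p) * (1 / 2 * M) + p * M) + p * ((1 - p) * M + p * M) := by
          have := sub_nonneg.2 h1
          rw [alt, expect, expect, expect, h00, hT, hB]
          gcongr
      _ = (1 - (1 - p) ^ 2 / 2) * M := by ring
      _ ≤ Real.exp (-((1 - p) ^ 2 / 2)) * Real.exp (-((1 - p) ^ 2 * K / 2)) :=
          mul_le_mul (by linarith [Real.add_one_le_exp (-((1 - p) ^ 2 / 2))]) ih hM0
            (Real.exp_pos _).le
      _ = _ := by rw [← Real.exp_add]; push_cast; ring_nf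

/-- The Hellinger term against the squared difference. -/
theorem sqrt_sub_sq_le {a b m : ℝ} (hm : 0 < m) (ha : m ≤ a) (hb : m ≤ b) :
    (Real.sqrt a - Real.sqrt b) ^ 2 ≤ (a - b) ^ 2 / (2 * m) := by
  rw [le_div_iff₀ (by positivity)]
  calc (Real.sqrt a - Real.sqrt b) ^ 2 * (2 * m)
      ≤ (Real.sqrt a - Real.sqrt b) ^ 2 * (Real.sqrt a + Real.sqrt b) ^ 2 := by
        refine mul_le_mul_of_nonneg_left ?_ (sq_nonneg _)
        nlinarith [Real.sq_sqrt (hm.le.trans ha), Real.sq_sqrt (hm.le.trans hb),
          mul_nonneg (Real.sqrt_nonneg a) (Real.sqrt_nonneg b)]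
    _ = _ := by
        rw [← mul_pow, mul_comm (_ - _) (_ + _), ← sq_sub_sq, Real.sq_sqrt (hm.le.trans ha), Real.sq_sqrt (hm.le.trans hb)]

/-- One class of traces. -/
theorem class_hell {p δ : ℝ} (hp0 : 0 < p) (hp1 : p < 1) (hδ0 : 0 < δ) (hδ1 : δ ≤ 1) {k J ℓ A : ℕ}
    (hbig : 256 ≤ δ * (k + J + 1 : ℕ)) (hk : δ * (k + J + 1 : ℕ) / 16 ≤ k)
    (hk' : (k : ℝ) ≤ δ * (k + J + 1 : ℕ) / 8) :
    classSum true ℓ A (hell p (cut k J) (cut (k + 1) (J - 1))) ≤
      classSum true ℓ A (fun t => prob p (alt (k + J + 1)) t *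
        (4 * 200000000000000000000000 / (δ / 32) ^ 26 / (1 - p) /
            ((k + J + 1 : ℕ) * Real.sqrt (k + J + 1 : ℕ)) +
          2 / (1 - p) * Real.exp (δ * (k + J + 1 : ℕ)) *
            (Real.exp (-(pairs t : ℝ)) +
              Real.exp ((t.length : ℝ) - (k + J + 1 : ℕ) - pairs t)))) := by
  set K := k + J + 1 with hK
  set C : ℝ := 200000000000000000000000 / (δ / 32) ^ 25 with hC
  have hq : 0 < 1 - p := by linarith
  have hK0 : (0 : ℝ) < K := by rw [hK]; positivity
  have hJ : 1 ≤ J := by
    by_contra h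
    obtain rfl : J = 0 := by omega
    have hK' : (K : ℝ) = k + 1 := by rw [hK]; push_cast; ring
    rw [hK'] at hk' hbig
    nlinarith
  have hpos : ∀ (w t : List Bool), 0 ≤ prob p w t := fun w t => prob_nonneg hp0.le hp1.le w t
  by_cases hA2 : 2 * A ≤ ℓ
  swap
  · refine classSum_mono _ _ _ fun t ht hA => ?_
    have := two_mul_pairs_le true t
    simp at this
    omega
  by_cases hlen : 2 * K ≤ ℓ
  · refine classSum_mono _ _ _ fun t ht _ => ?_
    have z1 : emb (cut k J) t = 0 := emb_eq_zero_of_lt (by rw [cut_length, ht]; omega)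
    have z2 : emb (cut (k + 1) (J - 1)) t = 0 :=
      emb_eq_zero_of_lt (by rw [cut_length, ht]; omega)
    have := hpos (alt K) t
    simp only [hell, prob, z1, z2, Nat.cast_zero, mul_zero, Real.sqrt_zero, sub_zero, ne_eq,
      OfNat.ofNat_ne_zero, not_false_eq_true, zero_pow]
    positivity
  set c := p ^ ℓ * (1 - p) ^ (2 * K - 1 - ℓ) with hc
  have hc0 : 0 ≤ c := by positivity
  have hprob : ∀ t : List Bool, t.length = ℓ →
      prob p (cut k J) t = c * emb (cut k J) t ∧
        prob p (cut (k + 1) (J - 1)) t = c * emb (cut (k + 1) (J - 1)) t ∧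
        prob p (alt K) t = c * (1 - p) * emb (alt K) t := by
    intro t ht
    refine ⟨?_, ?_, ?_⟩
    · rw [prob, cut_length, ht, hc, show 2 * K - 1 - ℓ = 2 * (k + J) + 1 - ℓ by omega]
    · rw [prob, cut_length, ht, hc, show 2 * K - 1 - ℓ = 2 * (k + 1 + (J - 1)) + 1 - ℓ by omega]
    · rw [prob, alt_length, ht, hc, show 2 * K - ℓ = 2 * K - 1 - ℓ + 1 by omega, pow_succ]
      ring
  by_cases htyp : δ * K ≤ A ∧ δ * K + ℓ ≤ (K : ℝ) + A
  · obtain ⟨t1, t2⟩ := htyp
    have hAl : 2 * (A : ℝ) ≤ ℓ := by exact_mod_cast hA2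
    have hlA : ℓ ≤ K + A := by
      have : (ℓ : ℝ) ≤ (K + A : ℕ) := by push_cast; linarith [mul_pos hδ0 hK0]
      exact_mod_cast this
    have hKJ : (K : ℝ) = (k : ℝ) + J + 1 := by rw [hK]; push_cast; ring
    set P : Cls := ⟨k, J, ℓ, A⟩ with hP
    have G : P.Good (δ / 32) K := by
      refine ⟨by positivity, by linarith, by linarith, rfl, ?_, ?_, ?_, ?_, ?_, hA2, ?_⟩ <;>
        simp only [hP] <;> linarith
    have G' : P.shift.Good (δ / 32) K := by
      refine ⟨by positivity, by linarith, by linarith, ?_, ?_, ?_, ?_, ?_, ?_, hA2, ?_⟩ <;>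
        simp only [hP, Cls.shift] <;> (try push_cast [Nat.cast_sub hJ]) <;>
        first | omega | linarith
    have hN' : P.shift.N = P.N := by
      simp only [hP, Cls.shift, Cls.N]
      rw [show k + 1 + (J - 1) + 1 + A = k + J + 1 + A by omega]
    have hN : 0 < P.N := by
      simp only [hP, Cls.N]
      exact_mod_cast Nat.choose_pos hlA
    have hb := Cls.class_bound G
    have hpt : ∀ t : List Bool, t.length = ℓ → pairs (true :: t) = A →
        hell p (cut k J) (cut (k + 1) (J - 1)) t ≤
          c / (δ / 64 * P.N) *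
            stateSum (fun s L y => if s then 0 else P.f L y) true t ^ 2 := by
      intro t ht hA
      obtain ⟨e1, e2, -⟩ := hprob t ht
      have a1 : (emb (cut k J) t : ℝ) = _ := emb_cut P ht hA
      have a2 : (emb (cut (k + 1) (J - 1)) t : ℝ) = _ := emb_cut P.shift ht hA
      rw [hell, e1, e2, Real.sqrt_mul hc0, Real.sqrt_mul hc0, ← mul_sub, mul_pow,
        Real.sq_sqrt hc0, div_mul_eq_mul_div, mul_div_assoc]
      refine mul_le_mul_of_nonneg_left ?_ hc0
      have l1 := Cls.zeros_le G (t := t) ht hA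
      have l2 := Cls.zeros_le G' (t := t) ht hA
      rw [hN'] at a2 l2
      rw [a1, a2, show δ / 64 * P.N = 2 * (δ / 32 / 4 * P.N) by ring]
      refine (sqrt_sub_sq_le (m := δ / 32 / 4 * P.N) (by positivity) (by linarith)
        (by linarith)).trans (le_of_eq ?_)
      congr 1
      have e : (fun s L y => if s = true then (0 : ℝ) else P.f L y) = fun s L y =>
          (if s = true then (0 : ℝ) else P.shift.g L y) -
            (if s = true then (0 : ℝ) else P.g L y) := by
        funext s L y; cases s <;> simp [Cls.f]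
      rw [e, stateSum_sub]
      ring
    refine (classSum_mono _ _ _ hpt).trans ?_
    rw [classSum_mul]
    refine (mul_le_mul_of_nonneg_left hb (by positivity)).trans ?_
    have hconst : classSum true ℓ A (fun t => prob p (alt K) t) =
        c * (1 - p) * P.N * classCard true ℓ A := by
      rw [← classSum_const]
      refine classSum_congr _ _ _ fun t ht hA => ?_
      rw [(hprob t ht).2.2, (emb_alt K).1, ht, ← pairs_cons_true t, hA]
      simp [hP, Cls.N, hK]
    calc c / (δ / 64 * P.N) *
          (C * (P.N ^ 2 / ((K : ℝ) * Real.sqrt K)) * classCard true ℓ A)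
        = 2 * C / (δ / 32) / (1 - p) / ((K : ℝ) * Real.sqrt K) *
            (c * (1 - p) * P.N * classCard true ℓ A) := by field_simp; ring
      _ = classSum true ℓ A (fun t => prob p (alt K) t *
            (2 * C / (δ / 32) / (1 - p) / ((K : ℝ) * Real.sqrt K))) := by
          rw [← hconst, ← classSum_mul]
          exact classSum_congr _ _ _ fun t _ _ => mul_comm _ _
      _ ≤ _ := classSum_mono _ _ _ fun t _ _ => by
          refine mul_le_mul_of_nonneg_left (le_add_of_le_of_nonneg ?_ (by positivity)) (hpos _ _)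
          rw [hC, show 2 * (200000000000000000000000 / (δ / 32) ^ 25) / (δ / 32) =
            2 * 200000000000000000000000 / (δ / 32) ^ 26 by ring]
          gcongr
          norm_num
  · refine classSum_mono _ _ _ fun t ht hA => ?_
    obtain ⟨e1, e2, e3⟩ := hprob t ht
    rw [pairs_cons_true] at hA
    have hle : hell p (cut k J) (cut (k + 1) (J - 1)) t ≤ 2 / (1 - p) * prob p (alt K) t := by
      have m1 : (emb (cut k J) t : ℝ) ≤ emb (alt K) t := Nat.cast_le.2 (emb_cut_le t)
      have m2 : (emb (cut (k + 1) (J - 1)) t : ℝ) ≤ emb (alt K) t := by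
        have := emb_cut_le (k := k + 1) (J := J - 1) t
        rw [show k + 1 + (J - 1) + 1 = K by omega] at this
        exact_mod_cast this
      rw [show 2 / (1 - p) * prob p (alt K) t = c * emb (alt K) t + c * emb (alt K) t by
        rw [e3]; field_simp; ring]
      refine le_trans ?_ (add_le_add (mul_le_mul_of_nonneg_left m1 hc0)
        (mul_le_mul_of_nonneg_left m2 hc0))
      rw [← e1, ← e2, hell]
      nlinarith [Real.sq_sqrt (hpos (cut k J) t), Real.sq_sqrt (hpos (cut (k + 1) (J - 1)) t),
        mul_nonneg (Real.sqrt_nonneg (prob p (cut k J) t))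
          (Real.sqrt_nonneg (prob p (cut (k + 1) (J - 1)) t))]
    have hone : 1 ≤ Real.exp (δ * K) *
        (Real.exp (-(pairs t : ℝ)) + Real.exp ((t.length : ℝ) - K - pairs t)) := by
      rw [ht, hA, mul_add, ← Real.exp_add, ← Real.exp_add]
      rcases not_and_or.1 htyp with h | h
      · exact le_add_of_le_of_nonneg (Real.one_le_exp (by linarith)) (Real.exp_pos _).le
      · exact le_add_of_nonneg_of_le (Real.exp_pos _).le (Real.one_le_exp (by linarith))
    refine hle.trans ?_
    rw [mul_comm (prob p (alt K) t), mul_comm (2 / (1 - p)) (prob p (alt K) t),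
      mul_comm _ (prob p (alt K) t)]
    refine mul_le_mul_of_nonneg_left (le_add_of_nonneg_of_le (by positivity) ?_) (hpos _ _)
    rw [mul_assoc]
    exact le_mul_of_one_le_right (by positivity) hone

/-- The two words are this close. -/
theorem separation {p : ℝ} (hp0 : 0 < p) (hp1 : p < 1) :
    ∃ C : ℝ, 0 < C ∧ ∃ K₀ : ℕ, ∀ K, K₀ ≤ K → ∃ w w' : List Bool,
      w.length = 2 * K - 1 ∧ w'.length = 2 * K - 1 ∧ w ≠ w' ∧
      hellSum p (2 * K - 1) w w' ≤ C / ((K : ℝ) * Real.sqrt K) := by
  set δ := min (p ^ 2) ((1 - p) ^ 2) / 4 with hδ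
  have hq : 0 < 1 - p := by linarith
  have hδ0 : 0 < δ := by positivity
  have hδp : δ ≤ p ^ 2 / 4 := by rw [hδ]; gcongr; exact min_le_left _ _
  have hδq : δ ≤ (1 - p) ^ 2 / 4 := by rw [hδ]; gcongr; exact min_le_right _ _
  have hδ1 : δ ≤ 1 := by nlinarith
  refine ⟨4 * 200000000000000000000000 / (δ / 32) ^ 26 / (1 - p) + 8 / ((1 - p) * δ ^ 2),
    by positivity, ⌈256 / δ⌉₊, fun K hK => ?_⟩
  have hbig : 256 ≤ δ * K := by
    have := (div_le_iff₀ hδ0).1 (Nat.ceil_le.1 hK)
    linarith
  have hK0 : (0 : ℝ) < K := by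
    by_contra h
    have : (K : ℝ) = 0 := le_antisymm (not_lt.1 h) (Nat.cast_nonneg _)
    rw [this] at hbig; linarith
  set k := ⌊δ * K / 8⌋₊ with hkdef
  have hk' : (k : ℝ) ≤ δ * K / 8 := Nat.floor_le (by positivity)
  have hk : δ * K / 16 ≤ k := by linarith [Nat.lt_floor_add_one (δ * K / 8)]
  have hkK : k + 2 ≤ K := by
    have h2 : δ * K ≤ K := mul_le_of_le_one_left hK0.le hδ1
    have : ((k + 2 : ℕ) : ℝ) ≤ K := by push_cast; linarith
    exact_mod_cast this
  set J := K - 1 - k with hJ
  have hKeq : k + J + 1 = K := by omega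
  refine ⟨cut k J, cut (k + 1) (J - 1), by rw [cut_length]; omega, by rw [cut_length]; omega,
    ?_, ?_⟩
  · intro h
    have := congrArg (fun l : List Bool => l[2 * k]?) h
    rw [cut, cut, alt_add k 1] at this
    simp [alt_length, alt] at this
  set W := fun t : List Bool => 4 * 200000000000000000000000 / (δ / 32) ^ 26 / (1 - p) /
      ((K : ℝ) * Real.sqrt K) + 2 / (1 - p) * Real.exp (δ * K) *
        (Real.exp (-(pairs t : ℝ)) + Real.exp ((t.length : ℝ) - K - pairs t)) with hW
  have hWpos : ∀ t, 0 ≤ W t := fun t => by rw [hW]; positivity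
  have h1 : hellSum p (2 * K - 1) (cut k J) (cut (k + 1) (J - 1)) ≤ expect p (alt K) W := by
    rw [expect_eq_prob, alt_length, hellSum]
    refine le_trans (Finset.sum_le_sum fun L _ => ?_)
      (sum_le_sum_of_subset_of_nonneg (range_mono (by omega)) fun L _ _ => ?_)
    · rw [wordSum_eq_classSum, wordSum_eq_classSum]
      refine Finset.sum_le_sum fun y _ => ?_
      have := class_hell (ℓ := L) (A := y) hp0 hp1 hδ0 hδ1 (k := k) (J := J)
        (by rw [hKeq]; exact hbig) (by rw [hKeq]; exact hk) (by rw [hKeq]; exact hk')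
      rw [hKeq] at this
      exact this
    · rw [wordSum_eq_sum]
      exact Finset.sum_nonneg fun t _ => mul_nonneg (prob_nonneg hp0.le hp1.le _ _) (hWpos t)
  refine h1.trans ?_
  have hE : expect p (alt K) W = 4 * 200000000000000000000000 / (δ / 32) ^ 26 / (1 - p) /
      ((K : ℝ) * Real.sqrt K) + 2 / (1 - p) * Real.exp (δ * K) *
        (expect p (alt K) (fun t => Real.exp (-(pairs t : ℝ))) +
          expect p (alt K) (fun t => Real.exp ((t.length : ℝ) - K - pairs t))) := by
    rw [hW, expect_add, expect_mul, expect_add]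
    congr 1
    set c : ℝ := 4 * 200000000000000000000000 / (δ / 32) ^ 26 / (1 - p) / ((K : ℝ) * Real.sqrt K)
    simpa [expect_one] using expect_mul p (alt K) c (fun _ => 1)
  rw [hE, add_div]
  refine add_le_add le_rfl ?_
  have hexp : Real.exp (-(δ * K)) ≤ 2 / (δ ^ 2 * ((K : ℝ) * Real.sqrt K)) := by
    have h := Real.quadratic_le_exp_of_nonneg (show 0 ≤ δ * K by positivity)
    have hs : Real.sqrt K ≤ K := by
      rw [Real.sqrt_le_left hK0.le]
      nlinarith [show (1 : ℝ) ≤ K by nlinarith]
    have hs0 : 0 < Real.sqrt K := Real.sqrt_pos.2 hK0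
    rw [Real.exp_neg, inv_le_iff_one_le_mul₀ (Real.exp_pos _), div_mul_eq_mul_div,
      le_div_iff₀ (by positivity), one_mul]
    nlinarith [mul_le_mul_of_nonneg_left hs (show 0 ≤ δ ^ 2 * (K : ℝ) by positivity)]
  calc 2 / (1 - p) * Real.exp (δ * K) *
        (expect p (alt K) (fun t => Real.exp (-(pairs t : ℝ))) +
          expect p (alt K) (fun t => Real.exp ((t.length : ℝ) - K - pairs t)))
      ≤ 2 / (1 - p) * Real.exp (δ * K) *
          (Real.exp (-(2 * (δ * K))) + Real.exp (-(2 * (δ * K)))) := by
        gcongr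
        · exact (expect_exp_pairs hp0.le hp1.le K).trans (Real.exp_le_exp.2 (by nlinarith))
        · exact (expect_exp_slack hp0.le hp1.le K).trans (Real.exp_le_exp.2 (by nlinarith))
    _ = 4 / (1 - p) * Real.exp (-(δ * K)) := by
        rw [show -(2 * (δ * K)) = -(δ * K) + -(δ * K) by ring, Real.exp_add, Real.exp_neg]
        field_simp
        ring
    _ ≤ 4 / (1 - p) * (2 / (δ ^ 2 * ((K : ℝ) * Real.sqrt K))) := by gcongr
    _ = _ := by rw [div_mul_div_comm, div_div]; norm_num [mul_assoc]

end Vale.Agent.P321
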