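import Mathlib

/-!
# P321: identities for the hypergeometric weights

`gg u v j L` is the number of `(j - 1 + L + 1)`-subsets of `u + v + 1` slots that contain the slot
after the first `u` and exactly `j - 1` slots before it.
-/

namespace Vale.Agent.P321

open Finset

/-- `C(u, j - 1)`, and `0` for `j = 0`. -/
def cm (u : ℕ) : ℕ → ℕ
  | 0 => 0
  | j + 1 => u.choose j

/-- The raw weight. -/
def gg (u v j L : ℕ) : ℝ := (cm u j * v.choose L : ℕ)

theorem gg_nonneg (u v j L : ℕ) : 0 ≤ gg u v j L := Nat.cast_nonneg _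

theorem gg_eq_zero {u v j L : ℕ} (h : u + 1 < j) : gg u v j L = 0 := by
  rcases j with _ | j
  · omega
  · simp [gg, cm, Nat.choose_eq_zero_of_lt (show u < j by omega)]

theorem cast_choose_succ (n m : ℕ) :
    (n.choose (m + 1) : ℝ) * ((m : ℝ) + 1) = n.choose m * ((n : ℝ) - m) := by
  rcases le_or_gt m n with h | h
  · rw [← Nat.cast_sub h]
    exact_mod_cast Nat.choose_succ_right_eq n m
  · simp [Nat.choose_eq_zero_of_lt h, Nat.choose_eq_zero_of_lt (h.trans (Nat.lt_succ_self m))]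

theorem cm_succ_mul (u j : ℕ) :
    (cm u (j + 1) : ℝ) * j = cm u j * ((u : ℝ) + 1 - j) := by
  rcases j with _ | j
  · simp [cm]
  · simp only [cm]
    push_cast
    rw [cast_choose_succ]
    ring

/-- One step to the right in a fixed row. -/
theorem gg_step (u v j L : ℕ) :
    gg u v (j + 1) L * (j * ((v : ℝ) - L)) =
      gg u v j (L + 1) * (((u : ℝ) + 1 - j) * ((L : ℝ) + 1)) := by
  simp only [gg, Nat.cast_mul]
  linear_combination ((v.choose L : ℝ) * ((v : ℝ) - L)) * cm_succ_mul u j -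
    (cm u j : ℝ) * ((u : ℝ) + 1 - j) * cast_choose_succ v L

/-- One step that also moves to the next slot. -/
theorem gg_jump (u v j L : ℕ) :
    gg (u + 1) v (j + 1) L * ((v : ℝ) + 1) =
      gg u (v + 1) (j + 1) L * ((v : ℝ) + 1 - L) + gg u (v + 1) j (L + 1) * ((L : ℝ) + 1) := by
  have hc : (cm (u + 1) (j + 1) : ℝ) = cm u (j + 1) + cm u j := by
    rcases j with _ | j
    · simp [cm]
    · simp [cm, Nat.choose_succ_succ']; ring
  have h1 : ((v : ℝ) + 1) * v.choose L = (v + 1).choose (L + 1) * ((L : ℝ) + 1) := by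
    exact_mod_cast Nat.add_one_mul_choose_eq v L
  have h2 := cast_choose_succ (v + 1) L
  push_cast at h2
  simp only [gg, Nat.cast_mul, hc]
  linear_combination ((cm u (j + 1) : ℝ) + cm u j) * h1 + (cm u (j + 1) : ℝ) * h2

/-- The number of subsets of size `ℓ` with fewer than `M` slots among the last `w`. -/
def cum (ℓ u w M : ℕ) : ℕ := ∑ r ∈ range M, w.choose r * cm u (ℓ + 1 - r)

theorem cum_le (ℓ u w M : ℕ) : cum ℓ u w M ≤ (u + w).choose ℓ := by
  have h1 : cum ℓ u w M ≤ cum ℓ u w (max M (ℓ + 1)) :=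
    Finset.sum_le_sum_of_subset (range_mono (le_max_left _ _))
  refine h1.trans (le_of_eq ?_)
  rw [cum, ← Finset.sum_range_add_sum_Ico _ (le_max_right M (ℓ + 1)),
    Finset.sum_eq_zero (s := Ico (ℓ + 1) _) fun r hr => by
      rw [Nat.sub_eq_zero_of_le (mem_Ico.1 hr).1]; simp [cm],
    add_zero, add_comm u w, Nat.add_choose_eq, Finset.Nat.sum_antidiagonal_eq_sum_range_succ_mk]
  refine Finset.sum_congr rfl fun r hr => ?_
  rw [Nat.succ_sub (Nat.lt_succ_iff.1 (mem_range.1 hr))]
  rfl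

theorem cum_succ (ℓ u w M : ℕ) :
    cum ℓ u w (M + 1) = cum ℓ u w M + w.choose M * cm u (ℓ + 1 - M) := Finset.sum_range_succ _ _

theorem cum_jump {ℓ M : ℕ} (hM : M ≤ ℓ + 1) (u w : ℕ) :
    cum ℓ u (w + 1) (M + 1) = cum ℓ (u + 1) w M + w.choose M * cm u (ℓ + 1 - M) := by
  induction M with
  | zero => simp [cum]
  | succ M ih =>
    rw [cum_succ, ih (by omega), cum_succ, Nat.choose_succ_succ',
      show ℓ + 1 - M = ℓ + 1 - (M + 1) + 1 by omega]
    rcases ℓ + 1 - (M + 1) with _ | m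
    · simp [cm]
    · simp [cm, Nat.choose_succ_succ']; ring

end Vale.Agent.P321
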