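import Mathlib

/-!
# P321: traces of alternating strings

`alt k` is the word `(01)^k`, with `false` for `0`. The number of ways to read a word `t` as a
subsequence of `alt k` is a single binomial coefficient, and reading it through a chosen zero of
`alt K` gives a sum of products of two binomial coefficients along the prefixes of `t`.
-/

namespace Vale.Agent.P321

open Finset

/-- The word `(01)^k`. -/
def alt : ℕ → List Bool
  | 0 => []
  | k + 1 => false :: true :: alt k

/-- The number of adjacent pairs `01`. -/
def pairs : List Bool → ℕ
  | [] => 0
  | [_] => 0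
  | a :: b :: r => (if a = false ∧ b = true then 1 else 0) + pairs (b :: r)

/-- The number of ways to read `t` as a subsequence of `w`. -/
def emb : List Bool → List Bool → ℕ
  | [], [] => 1
  | [], _ :: _ => 0
  | _ :: w, [] => emb w []
  | a :: w, b :: r => emb w (b :: r) + if a = b then emb w r else 0

/-- The expectation of `F` at a trace of `w` that keeps each letter with probability `p`. -/
def expect (p : ℝ) : List Bool → (List Bool → ℝ) → ℝ
  | [], F => F []
  | a :: w, F => (1 - p) * expect p w F + p * expect p w fun t => F (a :: t)

/-- The sum over all words of a given length. -/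
def wordSum : ℕ → (List Bool → ℝ) → ℝ
  | 0, F => F []
  | L + 1, F => wordSum L (fun r => F (false :: r)) + wordSum L (fun r => F (true :: r))

theorem alt_length (k : ℕ) : (alt k).length = 2 * k := by
  induction k with
  | zero => rfl
  | succ k ih => simp [alt, ih]; ring

theorem alt_add (k J : ℕ) : alt (k + J) = alt k ++ alt J := by
  induction k with
  | zero => simp [alt]
  | succ k ih => rw [Nat.succ_add]; simp [alt, ih]

theorem two_mul_pairs_le (s : Bool) (t : List Bool) :
    2 * pairs (s :: t) ≤ t.length + if s then 0 else 1 := by
  induction t generalizing s with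
  | nil => simp [pairs]
  | cons b r ih =>
    have := ih b
    cases s <;> cases b <;> simp [pairs] at this ⊢ <;> omega

theorem pairs_cons_true (t : List Bool) : pairs (true :: t) = pairs t := by
  cases t <;> simp [pairs]

theorem pairs_snoc (pre : List Bool) (b : Bool) :
    pairs (pre ++ [b]) =
      pairs pre + if pre.getLastD true = false ∧ b = true then 1 else 0 := by
  induction pre with
  | nil => simp [pairs]
  | cons a r ih =>
    cases r with
    | nil => simp [pairs]
    | cons c r' =>
      rw [List.cons_append, List.cons_append, pairs, ← List.cons_append, ih, pairs,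
        List.getLastD_cons, List.getLastD_cons, List.getLastD_cons]
      ring

theorem emb_nil (w : List Bool) : emb w [] = 1 := by
  induction w with
  | nil => rfl
  | cons a w ih => simp [emb, ih]

/-- Reading a word in `(01)^k` and in `1(01)^k`. -/
theorem emb_alt (k : ℕ) :
    (∀ t, emb (alt k) t = (k + pairs t).choose t.length) ∧
      ∀ t, emb (true :: alt k) t = (k + pairs (false :: t)).choose t.length := by
  induction k with
  | zero =>
    have h0 : ∀ t, emb (alt 0) t = (pairs t).choose t.length := by
      rintro (_ | ⟨b, r⟩)
      · rfl
      · rw [alt, emb, Nat.choose_eq_zero_of_lt]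
        have := two_mul_pairs_le b r
        simp only [List.length_cons]
        split_ifs at this <;> omega
    refine ⟨fun t => by rw [h0, zero_add], fun t => ?_⟩
    rcases t with _ | ⟨b, r⟩
    · simp [emb, alt, pairs]
    · simp only [emb, h0, zero_add]
      cases b
      · simp [pairs]
      · simp [pairs, pairs_cons_true, add_comm 1, Nat.choose_succ_succ']
        ring
  | succ k ih =>
    have hA : ∀ t, emb (alt (k + 1)) t = (k + 1 + pairs t).choose t.length := by
      intro t
      rcases t with _ | ⟨b, r⟩
      · simp [emb_nil]
      · rw [alt, emb, ih.2, ih.2]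
        cases b
        · simp only [pairs, List.length_cons, reduceCtorEq, and_false, if_true, if_false, zero_add]
          rw [show k + 1 + pairs (false :: r) = k + pairs (false :: r) + 1 by ring,
            Nat.choose_succ_succ']
          ring
        · simp [pairs, add_assoc]
    refine ⟨hA, fun t => ?_⟩
    rcases t with _ | ⟨b, r⟩
    · simp [emb_nil]
    · simp only [emb, hA]
      cases b
      · simp [pairs]
      · rw [if_pos rfl, pairs, if_pos ⟨rfl, rfl⟩, pairs_cons_true, List.length_cons,
          show k + 1 + (1 + pairs r) = k + 1 + pairs r + 1 by ring, Nat.choose_succ_succ']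
        ring

/-- Readings of `pre ++ t` that send a zero of `t` to the letter between `w₁` and `w₂`. -/
def splitSum (w₁ w₂ : List Bool) : List Bool → List Bool → ℕ
  | _, [] => 0
  | pre, b :: r =>
    (if b = false then emb w₁ pre * emb w₂ r else 0) + splitSum w₁ w₂ (pre ++ [b]) r

theorem splitSum_cons_left (a : Bool) (w₁ w₂ : List Bool) (c : Bool) (pre t : List Bool) :
    splitSum (a :: w₁) w₂ (c :: pre) t =
      splitSum w₁ w₂ (c :: pre) t + if a = c then splitSum w₁ w₂ pre t else 0 := by
  induction t generalizing pre with
  | nil => simp [splitSum]
  | cons b r ih =>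
    simp only [splitSum, List.cons_append, ih, emb]
    split_ifs <;> ring

theorem emb_insert (w₁ w₂ t : List Bool) :
    emb (w₁ ++ false :: w₂) t = emb (w₁ ++ w₂) t + splitSum w₁ w₂ [] t := by
  induction w₁ generalizing t with
  | nil =>
    have hz : ∀ (pre r : List Bool), pre ≠ [] → splitSum [] w₂ pre r = 0 := by
      intro pre r
      induction r generalizing pre with
      | nil => simp [splitSum]
      | cons b r ih =>
        intro hp
        obtain ⟨c, p, rfl⟩ := List.exists_cons_of_ne_nil hp
        simp [splitSum, emb, ih]
    rcases t with _ | ⟨b, r⟩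
    · simp [emb, splitSum]
    · cases b <;> simp [emb, splitSum, hz]
  | cons a w₁ ih =>
    rcases t with _ | ⟨b, r⟩
    · simp [emb, ih, splitSum]
    · simp only [List.cons_append, emb, ih, splitSum, List.nil_append, splitSum_cons_left, emb_nil]
      split_ifs <;> ring

/-- The sum of `f` over the states (last bit, bits left, pairs left) met while reading. -/
def stateSum (f : Bool → ℕ → ℕ → ℝ) : Bool → List Bool → ℝ
  | s, [] => f s 0 (pairs [s])
  | s, b :: r => f s (r.length + 1) (pairs (s :: b :: r)) + stateSum f b r

/-- The readings of the trace that use the zero of `(01)^(k+1+J)` at position `2 k`. -/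
theorem splitSum_alt_eq (k J ℓ A : ℕ) (pre t : List Bool) (s : Bool)
    (hs : s = pre.getLastD true) (hℓ : pre.length + t.length = ℓ)
    (hA : pairs pre + pairs (s :: t) = A) (f : Bool → ℕ → ℕ → ℝ)
    (hf : ∀ L y, L < ℓ → f false L y =
      ((k + (A - y)).choose (ℓ - L - 1) * (J + y).choose L : ℕ))
    (hft : ∀ L y, f true L y = 0) :
    (splitSum (alt k) (true :: alt J) pre t : ℝ) + (if s then 0 else f false t.length
        (pairs (s :: t))) = stateSum f s t := by
  induction t generalizing pre s with
  | nil =>
    cases s <;> simp [splitSum, stateSum, hft]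
  | cons b r ih =>
    have hstep := ih (pre ++ [b]) b (by simp) (by simp at hℓ ⊢; omega)
      (by rw [pairs_snoc, ← hs]; simp only [pairs] at hA ⊢; omega)
    rw [stateSum, ← hstep, splitSum]
    push_cast
    have e1 : ((if b = false then emb (alt k) pre * emb (true :: alt J) r else 0 : ℕ) : ℝ) =
        if b then 0 else f false r.length (pairs (b :: r)) := by
      cases b
      · rw [if_pos rfl, if_neg (by simp), hf _ _ (by simp at hℓ; omega), (emb_alt k).1,
          (emb_alt J).2]
        simp only [pairs, reduceCtorEq, and_false, if_false, zero_add, List.length_cons] at hA hℓ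
        rw [show A - pairs (false :: r) = pairs pre by omega,
          show ℓ - r.length - 1 = pre.length by omega]
      · simp
    push_cast at e1
    rw [e1]
    cases s <;> simp [hft] <;> ring

theorem expect_congr (p : ℝ) (w : List Bool) {F G : List Bool → ℝ} (h : ∀ t, F t = G t) :
    expect p w F = expect p w G := by rw [funext h]

theorem wordSum_add (L : ℕ) (F G : List Bool → ℝ) :
    wordSum L (fun t => F t + G t) = wordSum L F + wordSum L G := by
  induction L generalizing F G with
  | zero => rfl
  | succ L ih => simp only [wordSum, ih]; ring

theorem wordSum_mul (L : ℕ) (c : ℝ) (F : List Bool → ℝ) :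
    wordSum L (fun t => c * F t) = c * wordSum L F := by
  induction L generalizing F with
  | zero => rfl
  | succ L ih => simp only [wordSum, ih]; ring

theorem wordSum_congr (L : ℕ) {F G : List Bool → ℝ} (h : ∀ t, t.length = L → F t = G t) :
    wordSum L F = wordSum L G := by
  induction L generalizing F G with
  | zero => exact h [] rfl
  | succ L ih =>
    rw [wordSum, wordSum, ih (fun t ht => h _ (by simp [ht])),
      ih (fun t ht => h _ (by simp [ht]))]

theorem emb_eq_zero_of_lt {w t : List Bool} (h : w.length < t.length) : emb w t = 0 := by
  induction w generalizing t with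
  | nil => rcases t with _ | ⟨b, r⟩ <;> simp [emb] at h ⊢
  | cons a w ih =>
    rcases t with _ | ⟨b, r⟩
    · simp at h
    · simp only [List.length_cons] at h
      rw [emb, ih (t := b :: r) (by simp; omega), ih (t := r) (by omega)]
      simp

/-- The expectation in terms of readings. -/
theorem expect_eq (p : ℝ) (w : List Bool) (F : List Bool → ℝ) :
    expect p w F = ∑ L ∈ range (w.length + 1),
      p ^ L * (1 - p) ^ (w.length - L) * wordSum L (fun t => (emb w t : ℝ) * F t) := by
  induction w generalizing F with
  | nil => simp [expect, wordSum, emb]
  | cons a w ih =>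
    rw [expect, ih, ih, List.length_cons, Finset.sum_range_succ' _ (w.length + 1)]
    have h0 : wordSum 0 (fun t => (emb (a :: w) t : ℝ) * F t) = F [] := by simp [wordSum, emb_nil]
    have hstep : ∀ L, wordSum (L + 1) (fun t => (emb (a :: w) t : ℝ) * F t) =
        wordSum (L + 1) (fun t => (emb w t : ℝ) * F t) +
          wordSum L (fun t => (emb w t : ℝ) * F (a :: t)) := by
      intro L
      cases a <;> simp [wordSum, emb, add_mul, wordSum_add] <;> ring
    simp only [hstep, h0]
    have hlast : wordSum (w.length + 1) (fun t => (emb w t : ℝ) * F t) = 0 := by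
      rw [wordSum_congr _ (G := fun t => 0 * F t) fun t ht => by
        rw [emb_eq_zero_of_lt (by omega)]; simp]
      rw [wordSum_mul, zero_mul]
    simp only [mul_add, Finset.sum_add_distrib, Nat.add_sub_add_right, Nat.sub_zero, pow_zero,
      one_mul]
    have hq : (1 - p) * ∑ L ∈ range (w.length + 1),
        p ^ L * (1 - p) ^ (w.length - L) * wordSum L (fun t => (emb w t : ℝ) * F t) =
        (1 - p) ^ (w.length + 1) * F [] + ∑ L ∈ range (w.length + 1),
          p ^ (L + 1) * (1 - p) ^ (w.length - L) *
            wordSum (L + 1) (fun t => (emb w t : ℝ) * F t) := by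
      rw [Finset.sum_range_succ' _ w.length, Finset.sum_range_succ _ w.length, hlast, mul_add,
        mul_sum, mul_zero, add_zero, add_comm]
      congr 1
      · simp [wordSum, emb_nil, pow_succ]
        ring
      · refine Finset.sum_congr rfl fun L hL => ?_
        rw [show w.length - L = w.length - (L + 1) + 1 by have := mem_range.1 hL; omega, pow_succ']
        ring
    rw [hq, mul_sum, add_assoc, add_comm _ (_ * F [])]
    congr 2
    exact Finset.sum_congr rfl fun L _ => by ring

end Vale.Agent.P321
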