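import Vale.Agent.P321.Trace

/-!
# P321: words with a given number of pairs `01` form an urn chain

Among the words of length `L` that, read after the letter `s`, contain `y` pairs `01`, the next
letter has an explicit law. Sums of centred increments are orthogonal.
-/

namespace Vale.Agent.P321

open Finset

/-- The sum over the words of length `L` with `y` pairs `01` after the letter `s`. -/
def classSum : Bool → ℕ → ℕ → (List Bool → ℝ) → ℝ
  | _, 0, y, F => if y = 0 then F [] else 0
  | true, L + 1, y, F =>
    classSum false L y (fun r => F (false :: r)) + classSum true L y (fun r => F (true :: r))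
  | false, L + 1, y, F =>
    classSum false L y (fun r => F (false :: r)) +
      if y = 0 then 0 else classSum true L (y - 1) (fun r => F (true :: r))

/-- The number of these words. -/
def classCard (s : Bool) (L y : ℕ) : ℕ :=
  (L + 1).choose (if s then 2 * y + 1 else 2 * y)

/-- The mean of a function of the next letter. -/
noncomputable def urnMean (s : Bool) (L y : ℕ) (g : Bool → ℝ) : ℝ :=
  if s then (2 * y + 1) / ((L : ℝ) + 1) * g false + (1 - (2 * y + 1) / ((L : ℝ) + 1)) * g true
  else (1 - 2 * y / ((L : ℝ) + 1)) * g false + 2 * y / ((L : ℝ) + 1) * g true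

/-- The sum of `g` over the steps made while reading. -/
def pathSum (g : Bool → ℕ → ℕ → Bool → ℝ) : Bool → List Bool → ℝ
  | _, [] => 0
  | s, b :: r => g s (r.length + 1) (pairs (s :: b :: r)) b + pathSum g b r

theorem classSum_add (s : Bool) (L y : ℕ) (F G : List Bool → ℝ) :
    classSum s L y (fun t => F t + G t) = classSum s L y F + classSum s L y G := by
  induction L generalizing s y F G with
  | zero => simp only [classSum]; split_ifs <;> simp
  | succ L ih => cases s <;> simp only [classSum, ih] <;> (try split_ifs) <;> ring

theorem classSum_mul (s : Bool) (L y : ℕ) (c : ℝ) (F : List Bool → ℝ) :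
    classSum s L y (fun t => c * F t) = c * classSum s L y F := by
  induction L generalizing s y F with
  | zero => simp only [classSum]; split_ifs <;> simp
  | succ L ih => cases s <;> simp only [classSum, ih] <;> (try split_ifs) <;> ring

theorem classSum_mono (s : Bool) (L y : ℕ) {F G : List Bool → ℝ}
    (h : ∀ t, t.length = L → pairs (s :: t) = y → F t ≤ G t) :
    classSum s L y F ≤ classSum s L y G := by
  induction L generalizing s y F G with
  | zero =>
    simp only [classSum]
    split_ifs with hy
    · exact h [] rfl (by simp [pairs, hy])
    · exact le_rfl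
  | succ L ih =>
    cases s <;> simp only [classSum]
    · refine add_le_add (ih _ _ fun t ht hp => h _ (by simp [ht]) (by simp [pairs, hp])) ?_
      split_ifs with hy
      · exact le_rfl
      · exact ih _ _ fun t ht hp => h _ (by simp [ht]) (by simp [pairs, hp]; omega)
    · exact add_le_add (ih _ _ fun t ht hp => h _ (by simp [ht]) (by simp [pairs, hp]))
        (ih _ _ fun t ht hp => h _ (by simp [ht]) (by simp [pairs, hp]))

theorem classSum_congr (s : Bool) (L y : ℕ) {F G : List Bool → ℝ}
    (h : ∀ t, t.length = L → pairs (s :: t) = y → F t = G t) :
    classSum s L y F = classSum s L y G :=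
  le_antisymm (classSum_mono s L y fun t h1 h2 => (h t h1 h2).le)
    (classSum_mono s L y fun t h1 h2 => (h t h1 h2).ge)

theorem classSum_one (s : Bool) (L y : ℕ) :
    classSum s L y (fun _ => 1) = classCard s L y := by
  induction L generalizing s y with
  | zero =>
    rcases y with _ | y <;> cases s <;>
      simp [classSum, classCard, Nat.choose_eq_zero_of_lt, Nat.mul_succ]
  | succ L ih =>
    rcases y with _ | y <;> cases s <;>
      simp [classSum, ih, classCard, Nat.choose_succ_succ', Nat.mul_succ] <;> ring

theorem classSum_const (s : Bool) (L y : ℕ) (c : ℝ) :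
    classSum s L y (fun _ => c) = c * classCard s L y := by
  rw [← classSum_one, ← classSum_mul]
  simp

theorem classSum_urn (s : Bool) (L y : ℕ) (g : Bool → ℝ) :
    classSum s (L + 1) y (fun t => g (t.headD false)) =
      classCard s (L + 1) y * urnMean s (L + 1) y g := by
  have h := fun m j : ℕ => Nat.add_one_mul_choose_eq m j
  cases s <;> simp only [classSum, classSum_const, List.headD_cons, classCard, urnMean, if_true,
    Bool.false_eq_true, if_false] <;> push_cast
  · rcases y with _ | y
    · simp
    · simp only [Nat.succ_ne_zero, if_false, Nat.add_sub_cancel]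
      have e1 : ((L + 2 : ℕ) : ℝ) * (L + 1).choose (2 * y + 1) =
          ((L + 2).choose (2 * y + 2) : ℕ) * ((2 * y + 2 : ℕ) : ℝ) := by
        exact_mod_cast h (L + 1) (2 * y + 1)
      have e2 := Nat.choose_succ_succ' (L + 1) (2 * y + 1)
      have e2' : ((L + 1 + 1).choose (2 * y + 1 + 1) : ℝ) =
          (L + 1).choose (2 * y + 1) + (L + 1).choose (2 * y + 1 + 1) := by exact_mod_cast e2
      simp only [show 2 * (y + 1) = 2 * y + 1 + 1 by ring] at *
      push_cast at e1 e2' ⊢
      field_simp
      linear_combination (g true - g false) * e1 - ((L : ℝ) + 1 + 1) * g false * e2'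
  · have e1 : ((L + 2 : ℕ) : ℝ) * (L + 1).choose (2 * y) =
        ((L + 2).choose (2 * y + 1) : ℕ) * ((2 * y + 1 : ℕ) : ℝ) := by
      exact_mod_cast h (L + 1) (2 * y)
    have e2' : ((L + 1 + 1).choose (2 * y + 1) : ℝ) =
        (L + 1).choose (2 * y) + (L + 1).choose (2 * y + 1) := by
      exact_mod_cast Nat.choose_succ_succ' (L + 1) (2 * y)
    push_cast at e1 e2' ⊢
    field_simp
    linear_combination (g false - g true) * e1 - ((L : ℝ) + 1 + 1) * g true * e2'

/-- Centred increments are orthogonal. -/
theorem classSum_pathSum (g : Bool → ℕ → ℕ → Bool → ℝ)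
    (hg : ∀ s L y, urnMean s (L + 1) y (g s (L + 1) y) = 0) (s : Bool) (L y : ℕ) :
    classSum s L y (pathSum g s) = 0 ∧
      classSum s L y (fun t => pathSum g s t ^ 2) =
        classSum s L y (pathSum (fun s L y b => g s L y b ^ 2) s) := by
  induction L generalizing s y with
  | zero => simp [classSum, pathSum]
  | succ L ih =>
    have hz : classSum s (L + 1) y (fun t => g s (L + 1) y (t.headD false)) = 0 := by
      rw [classSum_urn, hg, mul_zero]
    have hA : classSum s (L + 1) y (pathSum g s) =
        classSum s (L + 1) y (fun t => g s (L + 1) y (t.headD false)) +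
          classSum s (L + 1) y (fun t => pathSum g (t.headD false) t.tail) := by
      rw [← classSum_add]
      refine classSum_congr _ _ _ fun t ht hp => ?_
      obtain ⟨b, r, rfl⟩ := List.exists_cons_of_length_eq_add_one ht
      simp only [List.length_cons, Nat.add_right_cancel_iff] at ht
      simp [pathSum, hp, ht]
    have hB : classSum s (L + 1) y (fun t => pathSum g (t.headD false) t.tail) = 0 := by
      cases s <;> simp [classSum, (ih _ _).1]
    refine ⟨by rw [hA, hz, hB, add_zero], ?_⟩
    have hX : classSum s (L + 1) y (fun t => g s (L + 1) y (t.headD false) *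
        pathSum g (t.headD false) t.tail) = 0 := by
      cases s <;> simp [classSum, classSum_mul, (ih _ _).1]
    have hQ : classSum s (L + 1) y (fun t => pathSum g (t.headD false) t.tail ^ 2) =
        classSum s (L + 1) y (fun t =>
          pathSum (fun s L y b => g s L y b ^ 2) (t.headD false) t.tail) := by
      cases s <;> simp [classSum, (ih _ _).2]
    have hexp : ∀ G : Bool → ℕ → ℕ → Bool → ℝ, ∀ t : List Bool, t.length = L + 1 →
        pairs (s :: t) = y →
        pathSum G s t = G s (L + 1) y (t.headD false) + pathSum G (t.headD false) t.tail := by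
      intro G t ht hp
      obtain ⟨b, r, rfl⟩ := List.exists_cons_of_length_eq_add_one ht
      simp only [List.length_cons, Nat.add_right_cancel_iff] at ht
      simp [pathSum, hp, ht]
    rw [classSum_congr s (L + 1) y (hexp fun s L y b => g s L y b ^ 2), classSum_add, ← hQ,
      classSum_congr s (L + 1) y (F := fun t => pathSum g s t ^ 2) (G := fun t =>
        g s (L + 1) y (t.headD false) ^ 2 + (2 * (g s (L + 1) y (t.headD false) *
          pathSum g (t.headD false) t.tail) + pathSum g (t.headD false) t.tail ^ 2))
        fun t ht hp => by rw [hexp g t ht hp]; ring,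
      classSum_add, classSum_add, classSum_mul, hX]
    ring

/-- Sorting the words of length `L` by their pairs. -/
theorem wordSum_eq_classSum (L : ℕ) (F : List Bool → ℝ) :
    wordSum L F = ∑ y ∈ range (L + 1), classSum true L y F := by
  have key : ∀ L (s : Bool) (F : List Bool → ℝ),
      wordSum L F = ∑ y ∈ range (L + 1), classSum s L y F := by
    intro L
    induction L with
    | zero => intro s F; simp [wordSum, classSum]
    | succ L ih =>
      intro s F
      have hout : ∀ (b : Bool) (G : List Bool → ℝ), classSum b L (L + 1) G = 0 := by
        intro b G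
        refine (classSum_congr b L (L + 1) (G := fun _ => 0) fun t ht hp => ?_).trans
          (by simp [classSum_const])
        have := two_mul_pairs_le b t
        split_ifs at this <;> omega
      rw [wordSum]
      cases s <;> simp only [classSum, Finset.sum_add_distrib]
      · rw [Finset.sum_range_succ (fun y => classSum false L y _) (L + 1), hout, add_zero, ← ih,
          Finset.sum_range_succ']
        simp only [Nat.succ_ne_zero, if_false, Nat.add_sub_cancel, if_true, add_zero]
        rw [← ih]
      · rw [Finset.sum_range_succ (fun y => classSum false L y _) (L + 1), hout, add_zero, ← ih,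
          Finset.sum_range_succ (fun y => classSum true L y _) (L + 1), hout, add_zero, ← ih]
  exact key L true F

end Vale.Agent.P321
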