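import Vale.Agent.P321.Urn
import Vale.Agent.P321.Slot

/-!
# P321: the weights along a trace

A trace with `ℓ` letters and `A` pairs `01` moves through states `(L, y)` of letters and pairs left.
Along this path the weight `g` sums to `O(1)`, its energy `Z ^ 2 S` to `O(K ^ 3)` and its variation
to `O(K ^ (-1/2))`, after dividing by the number `N` of readings.
-/

namespace Vale.Agent.P321

open Finset

/-- The class of traces of `(01)^(k+1+J)` with `ℓ` letters and `A` pairs, read through slot `k`. -/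
structure Cls where
  k : ℕ
  J : ℕ
  ℓ : ℕ
  A : ℕ

namespace Cls

variable (P : Cls)

/-- Slots before the current one. -/
def u (y : ℕ) : ℕ := P.k + (P.A - y)

/-- Slots after the current one. -/
def v (y : ℕ) : ℕ := P.J + y

/-- The weight of a state. -/
def g (L y : ℕ) : ℝ := gg (P.u y) (P.v y) (P.ℓ - L) L

/-- The weight one letter later in the same slot. -/
def gv (L y : ℕ) : ℝ := gg (P.u y) (P.v y) (P.ℓ - L + 1) (L - 1)

/-- The increment of the weight. -/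
def d (L y : ℕ) : ℝ := P.gv L y - P.g L y

/-- The sum of the two weights. -/
def S (L y : ℕ) : ℝ := P.g L y + P.gv L y

/-- The distance to the mode, scaled. -/
def Z (L y : ℕ) : ℝ := ((P.u y : ℝ) + 1) * L - (P.ℓ - L : ℕ) * ((P.v y : ℝ) + 1)

/-- The denominator in `d = Z S / D`. -/
def D (L y : ℕ) : ℝ :=
  ((P.u y : ℝ) + 1 - (P.ℓ - L : ℕ)) * L + (P.ℓ - L : ℕ) * ((P.v y : ℝ) + 1 - L)

/-- The potential. -/
def T (L y : ℕ) : ℝ := (cum P.ℓ (P.u y) (P.v y + 1) (L + 2) : ℕ)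

/-- The number of readings of a trace. -/
def N : ℝ := ((P.k + P.J + 1 + P.A).choose P.ℓ : ℕ)

/-- The pairs left after the next letter. -/
def nxt (s : Bool) (y : ℕ) (b : Bool) : ℕ := if s = false ∧ b = true then y - 1 else y

/-- States that can carry weight. -/
structure Near (L y : ℕ) : Prop where
  hL : L ≤ P.ℓ
  hy : y ≤ P.A
  hx : 2 * (P.A - y) ≤ P.ℓ - L
  hy2 : 2 * y ≤ L + 2

/-- The states met along a trace. -/
structure Reach (s : Bool) (L y : ℕ) : Prop where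
  hL : L ≤ P.ℓ
  hy : y ≤ P.A
  hx : 2 * (P.A - y) + (if s then 0 else 1) ≤ P.ℓ - L
  hy2 : 2 * y ≤ L + (if s then 0 else 1)

/-- One step along a trace. -/
structure Step (s : Bool) (L y : ℕ) (b : Bool) : Prop where
  cur : P.Reach s (L + 1) y
  pos : s = false → b = true → 1 ≤ y
  next : P.Reach b L (nxt s y b)

/-- Parameters in the typical range, at scale `K`. -/
structure Good (κ : ℝ) (K : ℕ) : Prop where
  κ0 : 0 < κ
  κ1 : κ ≤ 1
  big : 4 ≤ κ * K
  hK : P.k + P.J + 1 = K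
  hk : κ * K ≤ P.k
  hl : 2 * (P.k : ℝ) + 4 + κ * K ≤ P.ℓ
  hA : (P.k : ℝ) + 4 + κ * K ≤ P.A
  hR : (P.ℓ : ℝ) + κ * K ≤ P.J + P.A
  hlK : P.ℓ ≤ 2 * K
  hA2 : 2 * P.A ≤ P.ℓ
  hAK : P.A ≤ K

variable {P}

theorem Reach.near {s : Bool} {L y : ℕ} (h : P.Reach s L y) : P.Near L y :=
  ⟨h.hL, h.hy, by have := h.hx; split_ifs at this <;> omega,
    by have := h.hy2; split_ifs at this <;> omega⟩

theorem Reach.vert {s : Bool} {L y : ℕ} (h : P.Reach s (L + 1) y) : P.Near L y :=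
  ⟨by have := h.hL; omega, h.hy, by have := h.hx; split_ifs at this <;> omega,
    by have := h.hy2; split_ifs at this <;> omega⟩

theorem g_nonneg (L y : ℕ) : 0 ≤ P.g L y := gg_nonneg _ _ _ _

theorem gv_nonneg (L y : ℕ) : 0 ≤ P.gv L y := gg_nonneg _ _ _ _

theorem S_nonneg (L y : ℕ) : 0 ≤ P.S L y := add_nonneg (g_nonneg _ _) (gv_nonneg _ _)

theorem abs_d_le_S (L y : ℕ) : |P.d L y| ≤ P.S L y := by
  have := P.g_nonneg L y
  have := P.gv_nonneg L y
  rw [d, S, abs_le]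
  constructor <;> linarith

theorem dead {L y : ℕ} (h : P.u y + 1 < P.ℓ - L) :
    P.g L y = 0 ∧ P.gv L y = 0 ∧ P.S L y = 0 ∧ P.d L y = 0 := by
  have h1 : P.g L y = 0 := gg_eq_zero h
  have h2 : P.gv L y = 0 := gg_eq_zero (by omega)
  simp [S, d, h1, h2]

theorem gv_eq_g_next {L : ℕ} (y : ℕ) (hL : L + 1 ≤ P.ℓ) : P.gv (L + 1) y = P.g L y := by
  rw [gv, g, Nat.add_sub_cancel, show P.ℓ - (L + 1) + 1 = P.ℓ - L by omega]

theorem D_mul_d {L : ℕ} (y : ℕ) : P.D (L + 1) y * P.d (L + 1) y = P.Z (L + 1) y * P.S (L + 1) y := by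
  have := gg_step (P.u y) (P.v y) (P.ℓ - (L + 1)) L
  simp only [D, d, Z, S, gv, g, Nat.add_sub_cancel]
  push_cast
  linear_combination 2 * this

theorem g_jump {L y : ℕ} (hy : 1 ≤ y) (hyA : y ≤ P.A) (hL : L + 1 ≤ P.ℓ) :
    P.g L (y - 1) * (P.v y : ℝ) =
      P.gv (L + 1) y * ((P.v y : ℝ) - L) + P.g (L + 1) y * ((L : ℝ) + 1) := by
  have hu : P.u (y - 1) = P.u y + 1 := by simp only [u]; omega
  have hv : P.v y = P.v (y - 1) + 1 := by simp only [v]; omega
  have := gg_jump (P.u y) (P.v (y - 1)) (P.ℓ - (L + 1)) L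
  rw [← hv, show P.ℓ - (L + 1) + 1 = P.ℓ - L by omega] at this
  rw [g, gv, g, Nat.add_sub_cancel, hu, show P.ℓ - (L + 1) + 1 = P.ℓ - L by omega]
  rw [hv] at this ⊢
  push_cast at this ⊢
  linear_combination this

variable {κ : ℝ} {K : ℕ} (G : P.Good κ K)
include G

theorem Good.K_pos : (0 : ℝ) < K := by
  nlinarith [G.big, G.κ1, G.κ0]

theorem Good.cast_K : (P.k : ℝ) + P.J + 1 = K := by exact_mod_cast G.hK

theorem u_le {L y : ℕ} (h : P.Near L y) : (P.u y : ℝ) + 1 ≤ 3 * K := by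
  have : P.u y + 1 ≤ 3 * K := by have := G.hK; have := G.hAK; simp only [u]; omega
  exact_mod_cast this

theorem v_le {L y : ℕ} (h : P.Near L y) : (P.v y : ℝ) + 1 ≤ 3 * K := by
  have : P.v y + 1 ≤ 3 * K := by have := G.hK; have := G.hAK; have := h.hy; simp only [v]; omega
  exact_mod_cast this

theorem L_le {L y : ℕ} (h : P.Near L y) : (L : ℝ) ≤ 2 * K ∧ ((P.ℓ - L : ℕ) : ℝ) ≤ 2 * K := by
  have h1 : (L : ℕ) ≤ 2 * K := h.hL.trans G.hlK
  have h2 : P.ℓ - L ≤ 2 * K := (Nat.sub_le _ _).trans G.hlK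
  exact ⟨by exact_mod_cast h1, by exact_mod_cast h2⟩

/-- There are always many slots left. -/
theorem v_sub_ge {L y : ℕ} (h : P.Near L y) : κ * K ≤ (P.v y : ℝ) - L := by
  have h0 : P.A + L ≤ P.ℓ + y := by have := h.hx; have := h.hy; have := h.hL; omega
  have h0' : (P.A : ℝ) + L ≤ P.ℓ + y := by exact_mod_cast h0
  simp only [v]
  push_cast
  linarith [G.hR]

theorem live {L y : ℕ} (h : P.Near L y) (hl : P.ℓ - L ≤ P.u y + 1) :
    κ * K + 2 ≤ (L : ℝ) ∧ κ * K + 2 ≤ (y : ℝ) ∧ κ * K ≤ (P.u y : ℝ) + 1 ∧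
      κ ^ 2 * (K : ℝ) ^ 2 ≤ P.D L y := by
  have hx : P.A ≤ y + P.k + 1 := by have := h.hx; simp only [u] at hl; have := h.hy; omega
  have hj : P.ℓ ≤ L + 2 * P.k + 2 := by have := h.hx; simp only [u] at hl; omega
  have h1 : κ * K + 2 ≤ (L : ℝ) := by
    have : (P.ℓ : ℝ) ≤ L + 2 * P.k + 2 := by exact_mod_cast hj
    linarith [G.hl]
  have h2 : κ * K + 2 ≤ (y : ℝ) := by
    have : (P.A : ℝ) ≤ y + P.k + 1 := by exact_mod_cast hx
    linarith [G.hA]
  have h3 : κ * K ≤ (P.u y : ℝ) + 1 := by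
    have : (P.k : ℝ) ≤ P.u y := by exact_mod_cast Nat.le_add_right _ _
    linarith [G.hk]
  refine ⟨h1, h2, h3, ?_⟩
  have hv := v_sub_ge G h
  have hju : ((P.ℓ - L : ℕ) : ℝ) ≤ (P.u y : ℝ) + 1 := by exact_mod_cast hl
  have hk0 : 0 ≤ κ * K := by linarith [G.big]
  rw [D]
  nlinarith [mul_le_mul_of_nonneg_left (show κ * K ≤ (L : ℝ) by linarith) (sub_nonneg.2 hju),
    mul_le_mul_of_nonneg_left (show κ * K ≤ (P.v y : ℝ) + 1 - L by linarith)
      (Nat.cast_nonneg (α := ℝ) (P.ℓ - L)), mul_le_mul_of_nonneg_left h3 hk0]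

theorem D_le {L y : ℕ} (h : P.Near L y) : P.D L y ≤ 12 * (K : ℝ) ^ 2 := by
  obtain ⟨h1, h2⟩ := L_le G h
  have hu := u_le G h
  have hv := v_le G h
  rw [D]
  nlinarith [Nat.cast_nonneg (α := ℝ) L, Nat.cast_nonneg (α := ℝ) (P.ℓ - L),
    Nat.cast_nonneg (α := ℝ) (P.u y), Nat.cast_nonneg (α := ℝ) (P.v y)]

theorem Z_abs_le {L y : ℕ} (h : P.Near L y) : |P.Z L y| ≤ 6 * (K : ℝ) ^ 2 := by
  obtain ⟨h1, h2⟩ := L_le G h
  have hu := u_le G h
  have hv := v_le G h
  rw [Z, abs_le]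
  constructor <;> nlinarith [Nat.cast_nonneg (α := ℝ) L, Nat.cast_nonneg (α := ℝ) (P.ℓ - L),
    Nat.cast_nonneg (α := ℝ) (P.u y), Nat.cast_nonneg (α := ℝ) (P.v y)]

theorem abs_d_le {L y : ℕ} (h : P.Near (L + 1) y) :
    κ ^ 2 * (K : ℝ) ^ 2 * |P.d (L + 1) y| ≤ |P.Z (L + 1) y| * P.S (L + 1) y := by
  rcases le_or_gt (P.ℓ - (L + 1)) (P.u y + 1) with hl | hl
  · have hD := (live G h hl).2.2.2
    have := congrArg (|·|) (P.D_mul_d (L := L) y)
    simp only [abs_mul, abs_of_nonneg (S_nonneg (P := P) (L + 1) y)] at this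
    rw [← this]
    exact mul_le_mul_of_nonneg_right (hD.trans (le_abs_self _)) (abs_nonneg _)
  · simp [(dead hl).2.2.1, (dead hl).2.2.2]

theorem Z_step {L y y' : ℕ} (h : P.Near (L + 1) y) (hy : y' = y ∨ y' + 1 = y) :
    |P.Z L y' - P.Z (L + 1) y| ≤ 9 * K := by
  have hu := u_le G h
  have hv := v_le G h
  obtain ⟨h1, h2⟩ := L_le G h
  have hK := G.K_pos
  have e : ((P.ℓ - L : ℕ) : ℝ) = ((P.ℓ - (L + 1) : ℕ) : ℝ) + 1 := by
    have : P.ℓ - L = P.ℓ - (L + 1) + 1 := by have := h.hL; omega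
    exact_mod_cast this
  have hL0 := Nat.cast_nonneg (α := ℝ) L
  have hu0 := Nat.cast_nonneg (α := ℝ) (P.u y)
  have hv0 := Nat.cast_nonneg (α := ℝ) (P.v y)
  have hj0 := Nat.cast_nonneg (α := ℝ) (P.ℓ - (L + 1))
  push_cast at h1
  rcases hy with rfl | hy
  · simp only [Z, e]
    push_cast
    rw [abs_le]
    constructor <;> linarith
  · have e1 : (P.u y' : ℝ) = P.u y + 1 := by
      have : P.u y' = P.u y + 1 := by have := h.hy; simp only [u]; omega
      exact_mod_cast this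
    have e2 : (P.v y' : ℝ) + 1 = P.v y := by
      have : P.v y' + 1 = P.v y := by simp only [v]; omega
      exact_mod_cast this
    simp only [Z, e, e1, e2]
    push_cast
    rw [abs_le]
    constructor <;> nlinarith

/-- How the weight changes along one step. -/
theorem g_step {s b : Bool} {L y : ℕ} (h : P.Step s L y b) :
    ∃ c e : ℝ, 0 ≤ c ∧ c ≤ 1 - κ / 3 ∧ 0 ≤ e ∧ κ * K * e ≤ P.g (L + 1) y ∧
      P.g L (nxt s y b) - P.g (L + 1) y = P.d (L + 1) y * (1 - c) + e ∧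
      κ * P.gv (L + 1) y ≤ 3 * P.g L (nxt s y b) := by
  have hg := P.g_nonneg (L + 1) y
  have hL := h.cur.hL
  by_cases hj : s = false ∧ b = true
  · have hy := h.pos hj.1 hj.2
    have hn : nxt s y b = y - 1 := if_pos hj
    have hjump := P.g_jump hy h.cur.hy hL
    have hN := h.cur.vert
    have hv := v_sub_ge G hN
    have hv3 := v_le G hN
    have hv0 : (0 : ℝ) < P.v y := by linarith [G.big, Nat.cast_nonneg (α := ℝ) L]
    rw [hn]
    refine ⟨(L : ℝ) / P.v y, P.g (L + 1) y / P.v y, by positivity, ?_, by positivity, ?_, ?_, ?_⟩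
    · rw [div_le_iff₀ hv0]
      nlinarith [G.κ0, G.K_pos]
    · rw [← mul_div_assoc, div_le_iff₀ hv0]
      exact (mul_le_mul_of_nonneg_right (show κ * K ≤ (P.v y : ℝ) by
        linarith [Nat.cast_nonneg (α := ℝ) L]) hg).trans_eq (mul_comm _ _)
    · rw [d]
      field_simp
      linear_combination hjump
    · have h1 : P.gv (L + 1) y * (κ * K) ≤ P.g L (y - 1) * (3 * K) := by
        calc _ ≤ P.gv (L + 1) y * ((P.v y : ℝ) - L) :=
              mul_le_mul_of_nonneg_left hv (gv_nonneg _ _)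
          _ ≤ P.g L (y - 1) * P.v y := by
              rw [hjump]; linarith [mul_nonneg hg (show (0 : ℝ) ≤ L + 1 by positivity)]
          _ ≤ _ := mul_le_mul_of_nonneg_left (by linarith) (g_nonneg _ _)
      nlinarith [G.K_pos]
  · have hn : nxt s y b = y := if_neg hj
    rw [hn, ← gv_eq_g_next y hL]
    refine ⟨0, 0, le_rfl, by linarith [G.κ1], le_rfl, by linarith, by rw [d]; ring, ?_⟩
    nlinarith [G.κ1, P.gv_nonneg (L + 1) y]

theorem S_le {s b : Bool} {L y : ℕ} (h : P.Step s L y b) :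
    κ * P.S (L + 1) y ≤ 3 * (P.g (L + 1) y + P.g L (nxt s y b)) := by
  obtain ⟨c, e, -, -, -, -, -, h1⟩ := g_step G h
  rw [S]
  nlinarith [G.κ1, P.g_nonneg (L + 1) y]

omit G in
theorem Step.y_cases {s b : Bool} {L y : ℕ} (h : P.Step s L y b) :
    nxt s y b = y ∨ nxt s y b + 1 = y := by
  unfold nxt
  split_ifs with hj
  · exact Or.inr (Nat.sub_add_cancel (h.pos hj.1 hj.2))
  · exact Or.inl rfl

/-- The energy of one step. -/
theorem energy_step {s b : Bool} {L y : ℕ} (h : P.Step s L y b) :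
    κ / (36 * (K : ℝ) ^ 2) * (P.Z (L + 1) y ^ 2 * P.S (L + 1) y) ≤
      P.Z L (nxt s y b) * P.g L (nxt s y b) - P.Z (L + 1) y * P.g (L + 1) y +
        15 / κ * K * (P.g (L + 1) y + P.g L (nxt s y b)) := by
  obtain ⟨c, e, hc0, hc1, he0, he, hd, -⟩ := g_step G h
  have hN := h.cur.near
  have hK := G.K_pos
  have hκ := G.κ0
  have hZd : P.Z (L + 1) y ^ 2 * P.S (L + 1) y / (12 * (K : ℝ) ^ 2) ≤
      P.Z (L + 1) y * P.d (L + 1) y := by
    rcases le_or_gt (P.ℓ - (L + 1)) (P.u y + 1) with hl | hl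
    · have hD := (live G hN hl).2.2.2
      have hD0 : 0 < P.D (L + 1) y := lt_of_lt_of_le (by positivity) hD
      have e1 : P.Z (L + 1) y * P.d (L + 1) y =
          P.Z (L + 1) y ^ 2 * P.S (L + 1) y / P.D (L + 1) y := by
        rw [eq_div_iff hD0.ne']
        linear_combination P.Z (L + 1) y * P.D_mul_d (L := L) y
      rw [e1]
      exact div_le_div_of_nonneg_left (mul_nonneg (sq_nonneg _) (S_nonneg _ _)) hD0 (D_le G hN)
    · simp [(dead hl).2.2.1, (dead hl).2.2.2]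
  have h1 : κ / 3 * (P.Z (L + 1) y ^ 2 * P.S (L + 1) y / (12 * (K : ℝ) ^ 2)) ≤
      (1 - c) * (P.Z (L + 1) y * P.d (L + 1) y) :=
    mul_le_mul (by linarith) hZd (div_nonneg (mul_nonneg (sq_nonneg _) (S_nonneg _ _))
      (by positivity)) (by linarith)
  have h2 : |P.Z (L + 1) y * e| ≤ 6 / κ * K * P.g (L + 1) y := by
    rw [abs_mul, abs_of_nonneg he0]
    calc |P.Z (L + 1) y| * e ≤ 6 * (K : ℝ) ^ 2 * e :=
          mul_le_mul_of_nonneg_right (Z_abs_le G hN) he0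
      _ = 6 / κ * K * (κ * K * e) := by field_simp
      _ ≤ _ := mul_le_mul_of_nonneg_left he (by positivity)
  have h3 : |(P.Z L (nxt s y b) - P.Z (L + 1) y) * P.g L (nxt s y b)| ≤
      9 / κ * K * P.g L (nxt s y b) := by
    rw [abs_mul, abs_of_nonneg (g_nonneg _ _)]
    refine mul_le_mul_of_nonneg_right ((Z_step G hN h.y_cases).trans ?_) (g_nonneg _ _)
    rw [div_mul_eq_mul_div, le_div_iff₀ hκ]
    nlinarith [G.κ1]
  have e2 : κ / (36 * (K : ℝ) ^ 2) * (P.Z (L + 1) y ^ 2 * P.S (L + 1) y) =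
      κ / 3 * (P.Z (L + 1) y ^ 2 * P.S (L + 1) y / (12 * (K : ℝ) ^ 2)) := by ring
  have := mul_nonneg (show 0 ≤ 9 / κ * K by positivity) (P.g_nonneg (L + 1) y)
  have := mul_nonneg (show 0 ≤ 6 / κ * K by positivity) (P.g_nonneg L (nxt s y b))
  rw [e2]
  linarith [abs_le.1 h2, abs_le.1 h3, show P.Z L (nxt s y b) * P.g L (nxt s y b) -
      P.Z (L + 1) y * P.g (L + 1) y = (1 - c) * (P.Z (L + 1) y * P.d (L + 1) y) +
        P.Z (L + 1) y * e + (P.Z L (nxt s y b) - P.Z (L + 1) y) * P.g L (nxt s y b) from by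
    linear_combination P.Z (L + 1) y * hd, show 15 / κ * (K : ℝ) *
      (P.g (L + 1) y + P.g L (nxt s y b)) = 6 / κ * K * P.g (L + 1) y + 9 / κ * K * P.g (L + 1) y +
        (6 / κ * K * P.g L (nxt s y b) + 9 / κ * K * P.g L (nxt s y b)) by ring]

/-- The potential falls by at least a multiple of the weight. -/
theorem potential_step {s b : Bool} {L y : ℕ} (h : P.Step s L y b) :
    κ * P.g (L + 1) y ≤ 3 * (P.T (L + 1) y - P.T L (nxt s y b)) := by
  have hN := h.cur.near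
  have hv := v_sub_ge G hN
  obtain ⟨hL2, -⟩ := L_le G hN
  push_cast at hv hL2
  have hv3 := v_le G hN
  have hL := h.cur.hL
  set γ : ℝ := (((P.v y + 1).choose (L + 2) * cm (P.u y) (P.ℓ - (L + 1)) : ℕ) : ℝ) with hγ
  have hgγ : γ * ((L : ℝ) + 2) = P.g (L + 1) y * ((P.v y : ℝ) + 1) := by
    have := Nat.add_one_mul_choose_eq (P.v y) (L + 1)
    have h' : ((P.v y : ℝ) + 1) * (P.v y).choose (L + 1) =
        (P.v y + 1).choose (L + 2) * ((L : ℝ) + 2) := by exact_mod_cast this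
    simp only [hγ, g, gg]
    push_cast
    linear_combination -(cm (P.u y) (P.ℓ - (L + 1)) : ℝ) * h'
  have hg := P.g_nonneg (L + 1) y
  by_cases hj : s = false ∧ b = true
  · have hy := h.pos hj.1 hj.2
    rw [show nxt s y b = y - 1 from if_pos hj]
    have hu : P.u (y - 1) = P.u y + 1 := by have := h.cur.hy; simp only [u]; omega
    have hv' : P.v (y - 1) + 1 = P.v y := by simp only [v]; omega
    have hT := cum_jump (ℓ := P.ℓ) (M := L + 2) (by omega) (P.u y) (P.v y)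
    rw [show P.ℓ + 1 - (L + 2) = P.ℓ - (L + 1) by omega] at hT
    have hT' : P.T (L + 1) y - P.T L (y - 1) =
        ((P.v y).choose (L + 2) * cm (P.u y) (P.ℓ - (L + 1)) : ℕ) := by
      simp only [T, hu, hv', hT]
      push_cast
      ring
    have hval : (((P.v y).choose (L + 2) * cm (P.u y) (P.ℓ - (L + 1)) : ℕ) : ℝ) * ((L : ℝ) + 2) =
        P.g (L + 1) y * ((P.v y : ℝ) - (L + 1)) := by
      have := cast_choose_succ (P.v y) (L + 1)
      simp only [g, gg]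
      push_cast at this ⊢
      linear_combination (cm (P.u y) (P.ℓ - (L + 1)) : ℝ) * this
    rw [hT']
    have hnn : (0 : ℝ) ≤ (((P.v y).choose (L + 2) * cm (P.u y) (P.ℓ - (L + 1)) : ℕ) : ℝ) :=
      Nat.cast_nonneg _
    nlinarith [mul_le_mul_of_nonneg_left hv hg,
      mul_le_mul_of_nonneg_left (show (L : ℝ) + 2 ≤ 3 * K by nlinarith [G.big, G.κ1]) hnn,
      G.K_pos]
  · rw [show nxt s y b = y from if_neg hj]
    have hT : P.T (L + 1) y - P.T L y = γ := by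
      simp only [T, hγ, cum_succ P.ℓ (P.u y) (P.v y + 1) (L + 2)]
      rw [show P.ℓ + 1 - (L + 2) = P.ℓ - (L + 1) by omega]
      push_cast
      ring
    rw [hT]
    have h0 : 0 ≤ γ := Nat.cast_nonneg _
    nlinarith [mul_le_mul_of_nonneg_left (show κ * K ≤ (P.v y : ℝ) + 1 by
      linarith [Nat.cast_nonneg (α := ℝ) L]) hg,
      mul_le_mul_of_nonneg_left (show (L : ℝ) + 2 ≤ 3 * K by nlinarith [G.big, G.κ1]) h0, G.K_pos]

end Cls

end Vale.Agent.P321
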